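import Vale.Agent.P252.Defs

namespace Vale.Agent.P252.Growth

open Matrix Filter Topology
open scoped ContDiff

variable {n : ℕ}

/-- The partial derivative in the `i`-th coordinate. -/
noncomputable def pd (f : (EuclideanSpace ℝ (Fin n)) → ℝ) (i : Fin n) (x : (EuclideanSpace ℝ (Fin n))) : ℝ :=
  fderiv ℝ f x (EuclideanSpace.single i 1)

lemma hessian_eq (f : (EuclideanSpace ℝ (Fin n)) → ℝ) (x : (EuclideanSpace ℝ (Fin n))) (i j : Fin n) :
    hessian f x i j = pd (pd f j) i x := rfl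

variable {Ω : Set (EuclideanSpace ℝ (Fin n))} {f g : (EuclideanSpace ℝ (Fin n)) → ℝ} {x : (EuclideanSpace ℝ (Fin n))}

lemma diffAt (hΩ : IsOpen Ω) (hf : ContDiffOn ℝ ∞ f Ω) (hx : x ∈ Ω) : DifferentiableAt ℝ f x :=
  (hf.contDiffAt (hΩ.mem_nhds hx)).differentiableAt (by simp)

lemma pd_contDiffOn (hΩ : IsOpen Ω) (hf : ContDiffOn ℝ ∞ f Ω) (i : Fin n) :
    ContDiffOn ℝ ∞ (pd f i) Ω :=
  (hf.fderiv_of_isOpen hΩ le_rfl).clm_apply contDiffOn_const

lemma pd_congr (h : f =ᶠ[𝓝 x] g) (i : Fin n) : pd f i x = pd g i x := by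
  rw [pd, pd, h.fderiv_eq]

lemma pd_congr_on (hΩ : IsOpen Ω) (h : Set.EqOn f g Ω) (hx : x ∈ Ω) (i : Fin n) :
    pd f i x = pd g i x :=
  pd_congr (h.eventuallyEq_of_mem (hΩ.mem_nhds hx)) i

lemma fderiv_apply_eq_sum (f : (EuclideanSpace ℝ (Fin n)) → ℝ) (x v : (EuclideanSpace ℝ (Fin n))) :
    fderiv ℝ f x v = ∑ i, v i * pd f i x := by
  have hv : v = ∑ i, v i • EuclideanSpace.single i (1:ℝ) := by
    simpa using ((EuclideanSpace.basisFun (Fin n) ℝ).sum_repr v).symm
  conv_lhs => rw [hv]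
  simp [pd]

lemma pd_symm (hΩ : IsOpen Ω) (hf : ContDiffOn ℝ ∞ f Ω) (hx : x ∈ Ω) (i j : Fin n) :
    pd (pd f j) i x = pd (pd f i) j x := by
  have hd : DifferentiableAt ℝ (fderiv ℝ f) x :=
    ((hf.fderiv_of_isOpen hΩ (m := ∞) le_rfl).contDiffAt (hΩ.mem_nhds hx)).differentiableAt
      (by simp)
  have key : ∀ a b : Fin n, pd (pd f b) a x =
      fderiv ℝ (fderiv ℝ f) x (EuclideanSpace.single a 1) (EuclideanSpace.single b 1) := by
    intro a b
    unfold pd
    rw [fderiv_clm_apply hd (differentiableAt_const _)]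
    simp
  rw [key, key]
  exact ((hf.contDiffAt (hΩ.mem_nhds hx)).isSymmSndFDerivAt (by simp; exact WithTop.coe_le_coe.2 le_top)) _ _

/-- Jacobi's formula for a matrix-valued function. -/
lemma pd_det {M : (EuclideanSpace ℝ (Fin n)) → Matrix (Fin n) (Fin n) ℝ} (hM : ∀ a b, DifferentiableAt ℝ (fun y => M y a b) x)
    (k : Fin n) :
    pd (fun y => (M y).det) k x =
      ∑ i, ∑ l, (M x).adjugate i l * pd (fun y => M y l i) k x := by
  have h : HasFDerivAt (fun y => (M y).det)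
      (∑ σ : Equiv.Perm (Fin n), (Equiv.Perm.sign σ : ℝ) •
        ∑ i, (∏ j ∈ Finset.univ.erase i, M x (σ j) j) • fderiv ℝ (fun y => M y (σ i) i) x) x := by
    have : (fun y => (M y).det) =
        fun y => ∑ σ : Equiv.Perm (Fin n), (Equiv.Perm.sign σ : ℝ) • ∏ i, M y (σ i) i := by
      funext y
      rw [Matrix.det_apply']
      rfl
    rw [this]
    refine HasFDerivAt.fun_sum fun σ _ => HasFDerivAt.fun_const_smul ?_ _
    exact HasFDerivAt.finset_prod fun i _ => (hM (σ i) i).hasFDerivAt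
  rw [pd, h.fderiv]
  simp only [ContinuousLinearMap.sum_apply, FunLike.coe_smul, Pi.smul_apply, smul_eq_mul,
    Finset.mul_sum]
  rw [Finset.sum_comm]
  refine Finset.sum_congr rfl fun i _ => ?_
  have h2 : ∀ v : Fin n → ℝ, ((M x).updateCol i v).det = ∑ l, (M x).adjugate i l * v l := by
    intro v
    rw [← Matrix.cramer_apply, Matrix.cramer_eq_adjugate_mulVec]
    rfl
  rw [← h2 (fun l => pd (fun y => M y l i) k x), Matrix.det_apply']
  refine Finset.sum_congr rfl fun σ _ => ?_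
  rw [← Finset.mul_prod_erase Finset.univ _ (Finset.mem_univ i)]
  have h3 : ∀ j ∈ Finset.univ.erase i,
      (M x).updateCol i (fun l => pd (fun y => M y l i) k x) (σ j) j = M x (σ j) j := fun j hj => by
    simp [Matrix.updateCol_apply, Finset.ne_of_mem_erase hj]
  rw [Finset.prod_congr rfl h3]
  simp [Matrix.updateCol_apply, pd]
  ring

/-- Second derivative test at an interior local maximum. -/
lemma quad_nonpos_of_isLocalMax (hΩ : IsOpen Ω) (hf : ContDiffOn ℝ ∞ f Ω) (hx : x ∈ Ω)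
    (hm : IsLocalMax f x) (v : Fin n → ℝ) :
    ∑ i, ∑ j, v i * v j * pd (pd f j) i x ≤ 0 := by
  set w : (EuclideanSpace ℝ (Fin n)) := WithLp.toLp 2 v with hw
  let L : ℝ → (EuclideanSpace ℝ (Fin n)) := fun t => x + t • w
  have hL : ∀ t, HasDerivAt L w t := fun t => by
    simpa [L] using ((hasDerivAt_id t).smul_const w).const_add x
  have hLc : Continuous L := continuous_iff_continuousAt.2 fun t => (hL t).continuousAt
  have hL0 : L 0 = x := by simp [L]
  have hV : ∀ᶠ t in 𝓝 (0:ℝ), L t ∈ Ω :=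
    hLc.continuousAt.eventually_mem (hL0.symm ▸ hΩ.mem_nhds hx)
  let q : (EuclideanSpace ℝ (Fin n)) → ℝ := fun y => ∑ j, v j * pd f j y
  have h1 : ∀ t, L t ∈ Ω → HasDerivAt (fun t => f (L t)) (q (L t)) t := fun t ht => by
    have := (diffAt hΩ hf ht).hasFDerivAt.comp_hasDerivAt t (hL t)
    rw [fderiv_apply_eq_sum] at this
    simpa [q, hw, Function.comp_def] using this
  have he : deriv (fun t => f (L t)) =ᶠ[𝓝 0] fun t => q (L t) :=
    hV.mono fun t ht => (h1 t ht).deriv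
  have h2 : HasDerivAt (fun t => q (L t)) (∑ i, ∑ j, v i * v j * pd (pd f j) i x) 0 := by
    have hq : HasFDerivAt q (∑ j, v j • fderiv ℝ (pd f j) x) x :=
      HasFDerivAt.fun_sum fun j _ =>
        ((diffAt hΩ (pd_contDiffOn hΩ hf j) hx).hasFDerivAt.const_mul (v j))
    have := hq.comp_hasDerivAt_of_eq 0 (hL 0) hL0.symm
    simp only [ContinuousLinearMap.sum_apply, FunLike.coe_smul, Pi.smul_apply, smul_eq_mul,
      fderiv_apply_eq_sum, Finset.mul_sum] at this
    rw [Finset.sum_comm] at this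
    simpa [Function.comp_def, hw, mul_assoc, mul_left_comm, mul_comm] using this
  by_contra hc
  push_neg at hc
  have hm' : IsLocalMax (fun t => f (L t)) 0 := by
    have := hm
    rw [← hL0] at this
    exact this.comp_continuous hLc.continuousAt
  have hd0 : deriv (fun t => f (L t)) 0 = 0 := hm'.deriv_eq_zero
  have hdd : deriv (deriv fun t => f (L t)) 0 = ∑ i, ∑ j, v i * v j * pd (pd f j) i x := by
    rw [he.deriv_eq, h2.deriv]
  have hmin := isLocalMin_of_deriv_deriv_pos (by rw [hdd]; exact hc) hd0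
    ((h1 0 (by simpa [hL0] using hx)).continuousAt)
  have hconst : (fun t => f (L t)) =ᶠ[𝓝 0] fun _ => f (L 0) :=
    (hm'.and hmin).mono fun t ht => le_antisymm ht.1 ht.2
  have : deriv (deriv fun t => f (L t)) 0 = 0 := by
    rw [hconst.deriv.deriv_eq]; simp
  rw [hdd] at this
  exact hc.ne' this

lemma exists_factor {G : Matrix (Fin n) (Fin n) ℝ} (hG : G.PosDef) :
    ∃ B : Matrix (Fin n) (Fin n) ℝ, ∀ i j, G i j = ∑ k, B k i * B k j := by
  obtain ⟨B, hB⟩ : ∃ B : Matrix (Fin n) (Fin n) ℝ, G = Bᴴ * B := by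
    open scoped MatrixOrder in
    exact (CStarAlgebra.nonneg_iff_eq_star_mul_self.mp hG.posSemidef.nonneg)
  exact ⟨B, fun i j => by simp [hB, Matrix.mul_apply]⟩

lemma sum_mul_nonpos {G S : Matrix (Fin n) (Fin n) ℝ} (hG : G.PosDef)
    (hS : ∀ v : Fin n → ℝ, ∑ i, ∑ j, v i * v j * S i j ≤ 0) :
    ∑ i, ∑ j, G i j * S i j ≤ 0 := by
  obtain ⟨B, hB⟩ := exists_factor hG
  calc ∑ i, ∑ j, G i j * S i j = ∑ i, ∑ j, ∑ k, B k i * B k j * S i j := by
        simp only [hB, Finset.sum_mul]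
    _ = ∑ i, ∑ k, ∑ j, B k i * B k j * S i j := Finset.sum_congr rfl fun i _ => Finset.sum_comm
    _ = ∑ k, ∑ i, ∑ j, B k i * B k j * S i j := Finset.sum_comm
    _ ≤ 0 := Finset.sum_nonpos fun k _ => hS (B k)

lemma quad_le_trace {G : Matrix (Fin n) (Fin n) ℝ} (hG : G.PosDef) (v : Fin n → ℝ) :
    ∑ i, ∑ j, G i j * v i * v j ≤ (∑ i, v i ^ 2) * G.trace := by
  obtain ⟨B, hB⟩ := exists_factor hG
  have e1 : ∑ i, ∑ j, G i j * v i * v j = ∑ k, (∑ i, B k i * v i) ^ 2 := by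
    simp only [hB, Finset.sum_mul, sq, Finset.mul_sum]
    conv_rhs => rw [Finset.sum_comm]
    refine Finset.sum_congr rfl fun i _ => ?_
    rw [Finset.sum_comm]
    refine Finset.sum_congr rfl fun k _ => Finset.sum_congr rfl fun j _ => ?_
    ring
  have e2 : G.trace = ∑ k, ∑ i, B k i ^ 2 := by
    simp only [Matrix.trace, Matrix.diag_apply, hB, sq]
    exact Finset.sum_comm
  rw [e1, e2, Finset.mul_sum]
  refine Finset.sum_le_sum fun k _ => ?_
  rw [mul_comm]
  exact Finset.sum_mul_sq_le_sq_mul_sq _ _ _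

lemma det_le_trace_pow {G : Matrix (Fin n) (Fin n) ℝ} (hG : G.PosDef) :
    G.det ≤ G.trace ^ n := by
  rw [hG.isHermitian.det_eq_prod_eigenvalues, hG.isHermitian.trace_eq_sum_eigenvalues]
  simp only [RCLike.ofReal_real_eq_id, id_eq]
  calc ∏ i, hG.isHermitian.eigenvalues i ≤ ∏ _i : Fin n, ∑ j, hG.isHermitian.eigenvalues j :=
        Finset.prod_le_prod (fun i _ => (hG.eigenvalues_pos i).le)
          (fun i _ => Finset.single_le_sum (fun j _ => (hG.eigenvalues_pos j).le) (Finset.mem_univ i))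
    _ = _ := by simp

end Vale.Agent.P252.Growth
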