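import Vale.Agent.P252.Growth.Rules

namespace Vale.Agent.P252.Growth

open Matrix Filter Topology
open scoped ContDiff

variable {n : ℕ}

/-- A second order operator `∑ G_ij ∂_ij + ∑ b_i ∂_i`. -/
noncomputable def op (G : EuclideanSpace ℝ (Fin n) → Matrix (Fin n) (Fin n) ℝ)
    (b : EuclideanSpace ℝ (Fin n) → Fin n → ℝ) (φ : EuclideanSpace ℝ (Fin n) → ℝ)
    (x : EuclideanSpace ℝ (Fin n)) : ℝ :=
  ∑ i, ∑ j, G x i j * pd (pd φ j) i x + ∑ i, b x i * pd φ i x

/-- The quadratic form of `G`. -/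
def bil (G : Matrix (Fin n) (Fin n) ℝ) (v w : Fin n → ℝ) : ℝ := ∑ i, ∑ j, G i j * v i * w j

lemma bil_comm {G : Matrix (Fin n) (Fin n) ℝ} (hG : G.PosDef) (v w : Fin n → ℝ) :
    bil G v w = bil G w v := by
  unfold bil
  rw [Finset.sum_comm]
  refine Finset.sum_congr rfl fun i _ => Finset.sum_congr rfl fun j _ => ?_
  have := hG.isHermitian.apply i j
  simp at this
  rw [this]; ring

lemma bil_nonneg {G : Matrix (Fin n) (Fin n) ℝ} (hG : G.PosDef) (v : Fin n → ℝ) :
    0 ≤ bil G v v := by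
  obtain ⟨B, hB⟩ := exists_factor hG
  have : bil G v v = ∑ k, (∑ i, B k i * v i) ^ 2 := by
    simp only [bil, hB, Finset.sum_mul, sq, Finset.mul_sum]
    conv_rhs => rw [Finset.sum_comm]
    refine Finset.sum_congr rfl fun i _ => ?_
    rw [Finset.sum_comm]
    refine Finset.sum_congr rfl fun k _ => Finset.sum_congr rfl fun j _ => ?_
    ring
  rw [this]
  exact Finset.sum_nonneg fun k _ => sq_nonneg _

/-- The pointwise algebra at a maximum of `D + a z + m log (S - P)`. -/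
lemma key_algebra {n : ℕ} {κ m b a t s dz q g r R : ℝ}
    (hκ1 : κ ≤ 1) (hκm : 1 ≤ κ * m) (hκ0 : 0 ≤ κ) (hm : 0 < m) (hb : 0 ≤ b) (ha : 0 < a)
    (hs : s = (m * b) ^ 2 * g - 2 * (m * b) * a * r + a ^ 2 * q)
    (hdz : dz = m * b * r - a * q) (hg : 0 ≤ g) (hq : q ≤ 2 * R * t)
    (hr : 0 ≤ r) (hr' : r ≤ 2 * R) (ht : 0 ≤ t) (haR : 8 * a * R = 1)
    (hle : κ * s + a * (t + dz) - m * b * n - m * b ^ 2 * g ≤ 0) :
    t ≤ 16 * R * (m * b) * ((n : ℝ) + 1) := by
  have hR : 0 < R := by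
    by_contra h
    push Not at h
    nlinarith
  have h1 : 0 ≤ b ^ 2 * g * m * (κ * m - 1) := by
    apply mul_nonneg (by positivity); linarith
  have h2 : (1 - κ) * (a ^ 2 * q) ≤ a * t * (1 / 4) := by
    have e : a ^ 2 * (2 * R * t) = a * t * (1 / 4) := by
      have : a * R = 1 / 8 := by linarith
      calc a ^ 2 * (2 * R * t) = 2 * (a * R) * (a * t) := by ring
        _ = _ := by rw [this]; ring
    have h3 : (1 - κ) * (a ^ 2 * q) ≤ (1 - κ) * (a * t * (1 / 4)) := by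
      rw [← e]
      exact mul_le_mul_of_nonneg_left (mul_le_mul_of_nonneg_left hq (sq_nonneg a)) (by linarith)
    have : 0 ≤ a * t := by positivity
    nlinarith
  have h4 : a * r ≤ 1 / 4 := by nlinarith
  have h5 : (m * b) * ((2 * κ - 1) * (a * r)) ≤ (m * b) * (1 / 4) := by
    apply mul_le_mul_of_nonneg_left _ (by positivity)
    have : 0 ≤ a * r := by positivity
    nlinarith
  subst hs hdz
  have h6 : a * t * (3 / 4) ≤ m * b * ((n:ℝ) + 1) := by nlinarith
  have h7 : a * t ≤ 2 * (m * b * ((n:ℝ) + 1)) := by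
    have : 0 ≤ a * t := by positivity
    nlinarith
  calc t = 8 * R * (a * t) := by linear_combination (-t) * haR
    _ ≤ 8 * R * (2 * (m * b * ((n:ℝ) + 1))) := by gcongr
    _ = _ := by ring

variable {Ω : Set (EuclideanSpace ℝ (Fin n))}
  {G : EuclideanSpace ℝ (Fin n) → Matrix (Fin n) (Fin n) ℝ}
  {b : EuclideanSpace ℝ (Fin n) → Fin n → ℝ}

lemma op_nonpos_of_isLocalMax {φ : EuclideanSpace ℝ (Fin n) → ℝ} {x : EuclideanSpace ℝ (Fin n)}
    (hΩ : IsOpen Ω) (hφ : ContDiffOn ℝ ∞ φ Ω) (hx : x ∈ Ω) (hG : (G x).PosDef)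
    (hm : IsLocalMax φ x) : op G b φ x ≤ 0 := by
  have h0 : ∀ i, pd φ i x = 0 := fun i => by simp [pd, hm.fderiv_eq_zero]
  simp only [op, h0, mul_zero, Finset.sum_const_zero, add_zero]
  exact sum_mul_nonpos hG (quad_nonpos_of_isLocalMax hΩ hφ hx hm)

/-- Data on which the Pogorelov type argument runs. -/
structure Setup (n : ℕ) (Ω : Set (EuclideanSpace ℝ (Fin n))) where
  G : EuclideanSpace ℝ (Fin n) → Matrix (Fin n) (Fin n) ℝ
  b : EuclideanSpace ℝ (Fin n) → Fin n → ℝ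
  κ : ℝ
  D : EuclideanSpace ℝ (Fin n) → ℝ
  P : EuclideanSpace ℝ (Fin n) → ℝ
  z : EuclideanSpace ℝ (Fin n) → ℝ
  t : EuclideanSpace ℝ (Fin n) → ℝ
  isOpen : IsOpen Ω
  posDef : ∀ x ∈ Ω, (G x).PosDef
  κ_lb : 1 ≤ κ * ((n : ℝ) + 2)
  κ_ub : κ ≤ 1
  D_smooth : ContDiffOn ℝ ∞ D Ω
  P_smooth : ContDiffOn ℝ ∞ P Ω
  z_smooth : ContDiffOn ℝ ∞ z Ω
  op_D : ∀ x ∈ Ω, op G b D x = κ * bil (G x) (fun i => pd D i x) (fun i => pd D i x)
  op_P : ∀ x ∈ Ω, op G b P x = n
  op_z : ∀ x ∈ Ω, op G b z x = t x + bil (G x) (fun i => pd D i x) (fun i => pd z i x)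
  bil_Pz : ∀ x ∈ Ω, bil (G x) (fun i => pd P i x) (fun i => pd z i x) = 2 * z x
  bil_zz : ∀ x ∈ Ω, bil (G x) (fun i => pd z i x) (fun i => pd z i x) ≤ 2 * z x * t x
  t_nonneg : ∀ x ∈ Ω, 0 ≤ t x
  exp_D_le : ∀ x ∈ Ω, Real.exp (D x) ≤ t x ^ n
  z_nonneg : ∀ x ∈ Ω, 0 ≤ z x
  P_nonneg : ∀ x ∈ Ω, 0 ≤ P x
  sublevel_compact : ∀ T : ℝ, IsCompact {x | x ∈ Ω ∧ P x ≤ T}

namespace Setup

variable (S : Setup n Ω)

lemma κ_pos : 0 < S.κ := by
  by_contra h
  push Not at h
  nlinarith [S.κ_lb, mul_nonpos_of_nonpos_of_nonneg h (by positivity : (0:ℝ) ≤ (n:ℝ) + 2)]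

lemma max_bound {T R a : ℝ} (ha : 0 < a) (haR : 8 * a * R = 1) {x : EuclideanSpace ℝ (Fin n)}
    (hx : x ∈ Ω) (hPT : S.P x < T) (hzR : S.z x ≤ R)
    (hmax : IsLocalMax
      (fun y => S.D y + a * S.z y + ((n : ℝ) + 2) * Real.log (T - S.P y)) x) :
    S.t x ≤ 16 * R * (((n : ℝ) + 2) * (T - S.P x)⁻¹) * ((n : ℝ) + 1) := by
  set m : ℝ := (n : ℝ) + 2 with hm
  let V : Set (EuclideanSpace ℝ (Fin n)) := Ω ∩ S.P ⁻¹' Set.Iio T
  have hV : IsOpen V := S.P_smooth.continuousOn.isOpen_inter_preimage S.isOpen isOpen_Iio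
  have hxV : x ∈ V := ⟨hx, hPT⟩
  have hD := S.D_smooth.mono (Set.inter_subset_left : V ⊆ Ω)
  have hz := S.z_smooth.mono (Set.inter_subset_left : V ⊆ Ω)
  have hP := S.P_smooth.mono (Set.inter_subset_left : V ⊆ Ω)
  have hne : ∀ y ∈ V, T - S.P y ≠ 0 := fun y hy => (sub_pos.2 hy.2).ne'
  let L : EuclideanSpace ℝ (Fin n) → ℝ := fun y => Real.log (T - S.P y)
  have hL : ContDiffOn ℝ ∞ L V := (contDiffOn_const.sub hP).log hne
  let Z : EuclideanSpace ℝ (Fin n) → ℝ := fun y => S.D y + a * S.z y + m * L y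
  have hZ : ContDiffOn ℝ ∞ Z V :=
    (hD.add (contDiffOn_const.mul hz)).add (contDiffOn_const.mul hL)
  have hop : op S.G S.b Z x ≤ 0 := op_nonpos_of_isLocalMax hV hZ hxV (S.posDef x hx) hmax
  have hlog : ∀ y ∈ V, HasDerivAt (fun s => Real.log (T - s)) (-(T - S.P y)⁻¹) (S.P y) := by
    intro y hy
    have := ((hasDerivAt_id (S.P y)).const_sub T).log (hne y hy)
    simpa [neg_div] using this
  have hlog' : HasDerivAt (fun s => -(T - s)⁻¹) (-((T - S.P x)⁻¹ ^ 2)) (S.P x) := by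
    have := (((hasDerivAt_id (S.P x)).const_sub T).fun_inv (hne x hxV)).fun_neg
    simpa [neg_div, inv_pow] using this
  have e1 : ∀ y ∈ V, ∀ j, pd Z j y =
      pd S.D j y + a * pd S.z j y + m * (-(T - S.P y)⁻¹ * pd S.P j y) := by
    intro y hy j
    have d1 := diffAt hV hD hy
    have d2 := diffAt hV hz hy
    have d3 := diffAt hV hL hy
    rw [pd_add (f := fun y => S.D y + a * S.z y) (g := fun y => m * L y)
        (d1.add (d2.const_mul a)) (d3.const_mul m),
      pd_add (g := fun y => a * S.z y) d1 (d2.const_mul a), pd_const_mul d2, pd_const_mul d3,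
      pd_comp (φ := fun s => Real.log (T - s)) (hlog y hy) (diffAt hV hP hy)]
  have e2 : ∀ i j, pd (pd Z j) i x = pd (pd S.D j) i x + a * pd (pd S.z j) i x +
      m * (-(T - S.P x)⁻¹ * pd (pd S.P j) i x
        + -((T - S.P x)⁻¹ ^ 2) * pd S.P i x * pd S.P j x) := by
    intro i j
    have d1 := diffAt hV (pd_contDiffOn hV hD j) hxV
    have d2 := diffAt hV (pd_contDiffOn hV hz j) hxV
    have d3 := diffAt hV (pd_contDiffOn hV hL j) hxV
    rw [pd_congr_on hV (g := fun y => pd S.D j y + a * pd S.z j y + m * pd L j y)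
      (fun y hy => by
        show pd Z j y = _ + m * pd (fun y => Real.log (T - S.P y)) j y
        rw [e1 y hy j, pd_comp (φ := fun s => Real.log (T - s)) (hlog y hy) (diffAt hV hP hy)]) hxV,
      pd_add (f := fun y => pd S.D j y + a * pd S.z j y) (g := fun y => m * pd L j y)
        (d1.add (d2.const_mul a)) (d3.const_mul m),
      pd_add (g := fun y => a * pd S.z j y) d1 (d2.const_mul a), pd_const_mul d2, pd_const_mul d3,
      pd_pd_comp hV hP hxV (φ := fun s => Real.log (T - s)) hlog hlog']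
  set c : ℝ := (T - S.P x)⁻¹ with hc
  have hc0 : 0 ≤ c := (inv_pos.2 (sub_pos.2 hPT)).le
  set g := bil (S.G x) (fun i => pd S.P i x) (fun i => pd S.P i x) with hgdef
  have hexp : op S.G S.b Z x = op S.G S.b S.D x + a * op S.G S.b S.z x
      - m * c * op S.G S.b S.P x - m * c ^ 2 * g := by
    have A : ∑ i, ∑ j, S.G x i j * pd (pd Z j) i x =
        ∑ i, ∑ j, S.G x i j * pd (pd S.D j) i x + a * ∑ i, ∑ j, S.G x i j * pd (pd S.z j) i x
          - m * c * ∑ i, ∑ j, S.G x i j * pd (pd S.P j) i x - m * c ^ 2 * g := by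
      simp only [hgdef, bil, Finset.mul_sum, ← Finset.sum_add_distrib, ← Finset.sum_sub_distrib, e2]
      exact Finset.sum_congr rfl fun i _ => Finset.sum_congr rfl fun j _ => by ring
    have B : ∑ i, S.b x i * pd Z i x = ∑ i, S.b x i * pd S.D i x
        + a * ∑ i, S.b x i * pd S.z i x - m * c * ∑ i, S.b x i * pd S.P i x := by
      simp only [Finset.mul_sum, ← Finset.sum_add_distrib, ← Finset.sum_sub_distrib, e1 x hxV]
      exact Finset.sum_congr rfl fun i _ => by ring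
    simp only [op]
    rw [A, B]; ring
  have hgrad : ∀ i, pd S.D i x = m * c * pd S.P i x - a * pd S.z i x := by
    intro i
    have h0 : pd Z i x = 0 := by
      have h : fderiv ℝ Z x = 0 := hmax.fderiv_eq_zero
      simp [pd, h]
    rw [e1 x hxV i, ← hc] at h0
    linarith
  set q := bil (S.G x) (fun i => pd S.z i x) (fun i => pd S.z i x) with hqdef
  set r := bil (S.G x) (fun i => pd S.P i x) (fun i => pd S.z i x) with hrdef
  have hs : bil (S.G x) (fun i => pd S.D i x) (fun i => pd S.D i x) =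
      (m * c) ^ 2 * g - 2 * (m * c) * a * r + a ^ 2 * q := by
    have hr2 := bil_comm (S.posDef x hx) (fun i => pd S.z i x) (fun i => pd S.P i x)
    rw [← hrdef] at hr2
    have : bil (S.G x) (fun i => pd S.D i x) (fun i => pd S.D i x) =
        (m * c) ^ 2 * g - (m * c) * a * r
          - (m * c) * a * bil (S.G x) (fun i => pd S.z i x) (fun i => pd S.P i x) + a ^ 2 * q := by
      simp only [hgdef, hrdef, hqdef, bil, hgrad, Finset.mul_sum, ← Finset.sum_sub_distrib,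
        ← Finset.sum_add_distrib]
      exact Finset.sum_congr rfl fun i _ => Finset.sum_congr rfl fun j _ => by ring
    rw [this, hr2]; ring
  have hdz : bil (S.G x) (fun i => pd S.D i x) (fun i => pd S.z i x) = m * c * r - a * q := by
    simp only [hrdef, hqdef, bil, hgrad, Finset.mul_sum, ← Finset.sum_sub_distrib]
    exact Finset.sum_congr rfl fun i _ => Finset.sum_congr rfl fun j _ => by ring
  rw [hexp, S.op_D x hx, S.op_z x hx, S.op_P x hx] at hop
  have hr_eq : r = 2 * S.z x := S.bil_Pz x hx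
  have hq : q ≤ 2 * R * S.t x :=
    (S.bil_zz x hx).trans (mul_le_mul_of_nonneg_right (by linarith) (S.t_nonneg x hx))
  refine key_algebra S.κ_ub S.κ_lb S.κ_pos.le (by positivity) hc0 ha hs hdz
    (bil_nonneg (S.posDef x hx) _) hq ?_ ?_ (S.t_nonneg x hx) haR hop
  · linarith [S.z_nonneg x hx]
  · linarith

lemma boundary_bound {T R : ℝ} (hT : 0 < T) (hR : 0 < R)
    (hz : ∀ x ∈ Ω, S.P x ≤ 2 * T → S.z x ≤ R) {x : EuclideanSpace ℝ (Fin n)} (hx : x ∈ Ω)
    (hPx : S.P x = T) :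
    Real.exp (S.D x) ≤ 16 * (16 * ((n : ℝ) + 2) * ((n : ℝ) + 1)) ^ n * (R / T) ^ n := by
  set K : Set (EuclideanSpace ℝ (Fin n)) := {y | y ∈ Ω ∧ S.P y ≤ 2 * T}
  set a : ℝ := 1 / (8 * R) with ha
  let F : EuclideanSpace ℝ (Fin n) → ℝ := fun y =>
    Real.exp (S.D y + a * S.z y) * (2 * T - S.P y) ^ (n + 2)
  have hKΩ : K ⊆ Ω := fun y hy => hy.1
  have hFc : ContinuousOn F K :=
    ((S.D_smooth.continuousOn.mono hKΩ).add
      (continuousOn_const.mul (S.z_smooth.continuousOn.mono hKΩ))).rexp.mul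
      ((continuousOn_const.sub (S.P_smooth.continuousOn.mono hKΩ)).pow _)
  have hxK : x ∈ K := ⟨hx, by linarith⟩
  obtain ⟨y, hyK, hymax⟩ := (S.sublevel_compact (2 * T)).exists_isMaxOn ⟨x, hxK⟩ hFc
  have hFx : 0 < F x := by
    have : 0 < 2 * T - S.P x := by linarith
    positivity
  have hy2 : S.P y < 2 * T := by
    rcases hyK.2.lt_or_eq with h | h
    · exact h
    · have h1 : F x ≤ F y := hymax hxK
      simp [F, h] at h1
      linarith
  have hyΩ : y ∈ Ω := hyK.1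
  have hzy : S.z y ≤ R := hz y hyΩ hyK.2
  have hloc : IsLocalMax
      (fun w => S.D w + a * S.z w + ((n : ℝ) + 2) * Real.log (2 * T - S.P w)) y := by
    have hV : IsOpen (Ω ∩ S.P ⁻¹' Set.Iio (2 * T)) :=
      S.P_smooth.continuousOn.isOpen_inter_preimage S.isOpen isOpen_Iio
    refine Filter.eventually_of_mem (hV.mem_nhds ⟨hyΩ, hy2⟩) fun w hw => ?_
    have hpw : 0 < 2 * T - S.P w := sub_pos.2 hw.2
    have hpy : 0 < 2 * T - S.P y := sub_pos.2 hy2
    have h1 : F w ≤ F y := hymax ⟨hw.1, le_of_lt hw.2⟩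
    have h2 := Real.log_le_log (show 0 < F w by positivity) h1
    simp only [F] at h2
    rw [Real.log_mul (Real.exp_ne_zero _) (by positivity), Real.log_exp, Real.log_pow,
      Real.log_mul (Real.exp_ne_zero _) (by positivity), Real.log_exp, Real.log_pow] at h2
    push_cast at h2
    exact h2
  have ht := S.max_bound (by positivity : 0 < a) (by rw [ha]; field_simp) hyΩ hy2 hzy hloc
  set c : ℝ := 16 * ((n : ℝ) + 2) * ((n : ℝ) + 1) with hc
  have hη : 0 < 2 * T - S.P y := sub_pos.2 hy2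
  have ht' : S.t y ≤ c * R / (2 * T - S.P y) := by
    refine ht.trans_eq ?_
    rw [hc]; field_simp
  have hexp : Real.exp (a * S.z y) ≤ 4 := by
    have h1 : a * S.z y ≤ 1 := by
      have : a * R = 1 / 8 := by rw [ha]; field_simp
      nlinarith [S.z_nonneg y hyΩ]
    calc Real.exp (a * S.z y) ≤ Real.exp 1 := Real.exp_le_exp.2 h1
      _ ≤ 4 := by linarith [Real.exp_one_lt_d9]
  have hFy : F y ≤ 4 * (c * R) ^ n * (2 * T) ^ 2 := by
    calc F y = Real.exp (S.D y) * Real.exp (a * S.z y) * (2 * T - S.P y) ^ (n + 2) := by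
          simp [F, Real.exp_add]
      _ ≤ (c * R / (2 * T - S.P y)) ^ n * 4 * (2 * T - S.P y) ^ (n + 2) := by
          gcongr
          exact (S.exp_D_le y hyΩ).trans (pow_le_pow_left₀ (S.t_nonneg y hyΩ) ht' n)
      _ = 4 * (c * R) ^ n * (2 * T - S.P y) ^ 2 := by
          rw [div_pow, pow_add]; field_simp
      _ ≤ 4 * (c * R) ^ n * (2 * T) ^ 2 := by
          gcongr
          linarith [S.P_nonneg y hyΩ]
  have hFx' : Real.exp (S.D x) * T ^ (n + 2) ≤ F x := by
    simp only [F, hPx, Real.exp_add, show 2 * T - T = T by ring]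
    have : 1 ≤ Real.exp (a * S.z x) :=
      Real.one_le_exp (mul_nonneg (by positivity) (S.z_nonneg x hx))
    gcongr
    exact le_mul_of_one_le_right (Real.exp_pos _).le this
  have h : Real.exp (S.D x) * T ^ (n + 2) ≤ 4 * (c * R) ^ n * (2 * T) ^ 2 :=
    hFx'.trans ((hymax hxK).trans hFy)
  refine le_of_mul_le_mul_right (a := T ^ (n + 2)) (h.trans_eq ?_) (by positivity)
  rw [pow_add, div_pow, mul_pow]
  field_simp
  ring

lemma min_bound {T L δ : ℝ} (hδ : 0 < δ) (hn : 1 ≤ n) {x₀ : EuclideanSpace ℝ (Fin n)}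
    (h0 : x₀ ∈ Ω) (hT : S.P x₀ ≤ T) (hL : ∀ x ∈ Ω, S.P x = T → S.D x ≤ L) :
    Real.exp (-S.κ * L) - δ * T ≤ Real.exp (-S.κ * S.D x₀) - δ * S.P x₀ := by
  set K : Set (EuclideanSpace ℝ (Fin n)) := {y | y ∈ Ω ∧ S.P y ≤ T}
  let w : EuclideanSpace ℝ (Fin n) → ℝ := fun y => δ * S.P y + -Real.exp (-S.κ * S.D y)
  have hws : ContDiffOn ℝ ∞ w Ω :=
    (contDiffOn_const.mul S.P_smooth).add (contDiffOn_const.mul S.D_smooth).exp.neg
  obtain ⟨y, hyK, hy⟩ := (S.sublevel_compact T).exists_isMaxOn ⟨x₀, h0, hT⟩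
    (hws.continuousOn.mono fun z hz => hz.1)
  have hmax : w x₀ ≤ w y := hy ⟨h0, hT⟩
  rcases hyK.2.lt_or_eq with hlt | heq
  · exfalso
    have hV : IsOpen (Ω ∩ S.P ⁻¹' Set.Iio T) :=
      S.P_smooth.continuousOn.isOpen_inter_preimage S.isOpen isOpen_Iio
    have hloc : IsLocalMax w y :=
      Filter.eventually_of_mem (hV.mem_nhds ⟨hyK.1, hlt⟩) fun z hz => hy ⟨hz.1, le_of_lt hz.2⟩
    have hΩ := S.isOpen
    have hneg := op_nonpos_of_isLocalMax (G := S.G) (b := S.b) hΩ hws hyK.1 (S.posDef y hyK.1) hloc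
    have h1 : ∀ z, HasDerivAt (fun s => -Real.exp (-S.κ * s)) (S.κ * Real.exp (-S.κ * z)) z := by
      intro z
      have := (((hasDerivAt_id z).const_mul (-S.κ)).exp).fun_neg
      simpa [mul_comm] using this
    have h2 : HasDerivAt (fun s => S.κ * Real.exp (-S.κ * s))
        (-(S.κ ^ 2) * Real.exp (-S.κ * S.D y)) (S.D y) := by
      have := (((hasDerivAt_id (S.D y)).const_mul (-S.κ)).exp).const_mul S.κ
      simpa [mul_comm, mul_left_comm, mul_assoc, sq, neg_mul, mul_neg] using this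
    have hP := S.P_smooth
    have hE : ContDiffOn ℝ ∞ (fun z => -Real.exp (-S.κ * S.D z)) Ω :=
      (contDiffOn_const.mul S.D_smooth).exp.neg
    have e1 : ∀ z ∈ Ω, ∀ j, pd w j z =
        δ * pd S.P j z + S.κ * Real.exp (-S.κ * S.D z) * pd S.D j z := fun z hz j => by
      rw [pd_add (f := fun y => δ * S.P y) (g := fun y => -Real.exp (-S.κ * S.D y))
          ((diffAt hΩ hP hz).const_mul δ) (diffAt hΩ hE hz), pd_const_mul (diffAt hΩ hP hz),
        pd_comp (h1 _) (diffAt hΩ S.D_smooth hz)]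
    have e2 : ∀ i j, pd (pd w j) i y = δ * pd (pd S.P j) i y +
        (S.κ * Real.exp (-S.κ * S.D y) * pd (pd S.D j) i y
          + -(S.κ ^ 2) * Real.exp (-S.κ * S.D y) * pd S.D i y * pd S.D j y) := by
      intro i j
      have d1 := diffAt hΩ (pd_contDiffOn hΩ hP j) hyK.1
      have d2 := diffAt hΩ (pd_contDiffOn hΩ hE j) hyK.1
      rw [pd_congr_on hΩ (g := fun z => δ * pd S.P j z +
          pd (fun z => -Real.exp (-S.κ * S.D z)) j z)
          (fun z hz => by
            show pd w j z = _ + pd (fun z => -Real.exp (-S.κ * S.D z)) j z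
            rw [e1 z hz j, pd_comp (h1 _) (diffAt hΩ S.D_smooth hz)]) hyK.1,
        pd_add (f := fun z => δ * pd S.P j z)
          (g := fun z => pd (fun z => -Real.exp (-S.κ * S.D z)) j z) (d1.const_mul δ) d2,
        pd_const_mul d1, pd_pd_comp hΩ S.D_smooth hyK.1
          (φ' := fun s => S.κ * Real.exp (-S.κ * s)) (fun z _ => h1 _) h2]
    have hexp : op S.G S.b w y = δ * op S.G S.b S.P y
        + S.κ * Real.exp (-S.κ * S.D y) * (op S.G S.b S.D y
          - S.κ * bil (S.G y) (fun i => pd S.D i y) (fun i => pd S.D i y)) := by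
      set E := Real.exp (-S.κ * S.D y) with hE'
      set g := bil (S.G y) (fun i => pd S.D i y) (fun i => pd S.D i y) with hg
      have A : ∑ i, ∑ j, S.G y i j * pd (pd w j) i y =
          δ * ∑ i, ∑ j, S.G y i j * pd (pd S.P j) i y
            + S.κ * E * ∑ i, ∑ j, S.G y i j * pd (pd S.D j) i y - S.κ ^ 2 * E * g := by
        simp only [hg, bil, Finset.mul_sum, ← Finset.sum_add_distrib, ← Finset.sum_sub_distrib, e2]
        exact Finset.sum_congr rfl fun i _ => Finset.sum_congr rfl fun j _ => by ring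
      have B : ∑ i, S.b y i * pd w i y = δ * ∑ i, S.b y i * pd S.P i y
          + S.κ * E * ∑ i, S.b y i * pd S.D i y := by
        simp only [Finset.mul_sum, ← Finset.sum_add_distrib, e1 y hyK.1]
        exact Finset.sum_congr rfl fun i _ => by ring
      simp only [op]
      rw [A, B]; ring
    rw [hexp, S.op_D y hyK.1, S.op_P y hyK.1, sub_self, mul_zero, add_zero] at hneg
    have : (0:ℝ) < n := by exact_mod_cast hn
    nlinarith
  · have h3 : Real.exp (-S.κ * L) ≤ Real.exp (-S.κ * S.D y) := by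
      apply Real.exp_le_exp.2
      nlinarith [hL y hyK.1 heq, S.κ_pos]
    simp only [w, heq] at hmax
    linarith

/-- The sublevel bound `z = o(P)` is impossible. -/
theorem contradiction (hn : 1 ≤ n) {x₀ : EuclideanSpace ℝ (Fin n)} (h0 : x₀ ∈ Ω)
    (hz : ∀ ε > 0, ∀ T₀ : ℝ, ∃ T ≥ T₀, ∀ x ∈ Ω, S.P x ≤ 2 * T → S.z x ≤ ε * T) : False := by
  set C : ℝ := 16 * (16 * ((n : ℝ) + 2) * ((n : ℝ) + 1)) ^ n with hC
  have hC0 : 0 < C := by positivity
  set ε : ℝ := min 1 (Real.exp (S.D x₀) / (2 * C)) with hε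
  have hε0 : 0 < ε := lt_min one_pos (div_pos (Real.exp_pos _) (by positivity))
  obtain ⟨T, hT, hzT⟩ := hz ε hε0 (max 1 (S.P x₀))
  have hT1 : 1 ≤ T := (le_max_left _ _).trans hT
  have hL : ∀ x ∈ Ω, S.P x = T → S.D x ≤ Real.log (C * ε) := by
    intro x hx hPx
    rw [Real.le_log_iff_exp_le (by positivity)]
    refine (S.boundary_bound (by linarith) (by positivity) hzT hx hPx).trans ?_
    rw [show ε * T / T = ε by field_simp, ← hC]
    gcongr
    calc ε ^ n ≤ ε ^ 1 := pow_le_pow_of_le_one hε0.le (min_le_left _ _) hn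
      _ = ε := pow_one ε
  have hlim : Real.exp (-S.κ * Real.log (C * ε)) ≤ Real.exp (-S.κ * S.D x₀) := by
    refine le_of_forall_pos_le_add fun e he => ?_
    have h := S.min_bound (δ := e / T) (by positivity) hn h0 ((le_max_right _ _).trans hT) hL
    rw [div_mul_cancel₀ e (by positivity)] at h
    have : 0 ≤ e / T * S.P x₀ := mul_nonneg (by positivity) (S.P_nonneg _ h0)
    linarith
  have h1 : S.D x₀ ≤ Real.log (C * ε) := by
    have := Real.exp_le_exp.1 hlim
    nlinarith [S.κ_pos]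
  rw [Real.le_log_iff_exp_le (by positivity)] at h1
  have h2 : C * ε ≤ Real.exp (S.D x₀) / 2 := by
    calc C * ε ≤ C * (Real.exp (S.D x₀) / (2 * C)) := by gcongr; exact min_le_right _ _
      _ = _ := by field_simp
  linarith [Real.exp_pos (S.D x₀)]

end Setup

end Vale.Agent.P252.Growth
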