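import Vale.Agent.P252.Growth.Rules

namespace Vale.Agent.P252.Growth

open Matrix Filter Topology Set
open scoped ContDiff

variable {n : ℕ}

/-- Completeness of the graph of `u` over `Ω` in the Euclidean metric induced on it: every
continuous half-open path in the graph of finite length has an end point in the graph. -/
def EuclideanComplete (Ω : Set (EuclideanSpace ℝ (Fin n))) (u : EuclideanSpace ℝ (Fin n) → ℝ) :
    Prop :=
  ∀ γ : ℝ → EuclideanSpace ℝ (Fin n), ContinuousOn γ (Ico 0 1) → MapsTo γ (Ico 0 1) Ω →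
    eVariationOn (fun t => (γ t, u (γ t))) (Ico 0 1) ≠ ⊤ →
      ∃ x ∈ Ω, Tendsto γ (𝓝[<] 1) (𝓝 x)

variable {Ω : Set (EuclideanSpace ℝ (Fin n))} {u : EuclideanSpace ℝ (Fin n) → ℝ}

lemma line_deriv (hΩ : IsOpen Ω) (hu : ContDiffOn ℝ ∞ u Ω) (x v : EuclideanSpace ℝ (Fin n)) (t : ℝ)
    (ht : x + t • v ∈ Ω) :
    HasDerivAt (fun s : ℝ => u (x + s • v)) (∑ j, v j * pd u j (x + t • v)) t ∧
    HasDerivAt (fun s : ℝ => ∑ j, v j * pd u j (x + s • v))
      (∑ i, ∑ j, v i * hessian u (x + t • v) i j * v j) t := by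
  have hL : HasDerivAt (fun s : ℝ => x + s • v) v t := by
    simpa using ((hasDerivAt_id t).smul_const v).const_add x
  constructor
  · have := (diffAt hΩ hu ht).hasFDerivAt.comp_hasDerivAt t hL
    rw [fderiv_apply_eq_sum] at this
    exact this
  · have hq : ∀ j, HasDerivAt (fun s : ℝ => v j * pd u j (x + s • v))
        (∑ i, v i * hessian u (x + t • v) i j * v j) t := by
      intro j
      have := ((diffAt hΩ (pd_contDiffOn hΩ hu j) ht).hasFDerivAt.comp_hasDerivAt t hL).const_mul (v j)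
      rw [fderiv_apply_eq_sum, Finset.mul_sum] at this
      refine this.congr_deriv (Finset.sum_congr rfl fun i _ => ?_)
      rw [hessian_eq]; ring
    rw [Finset.sum_comm]
    exact HasDerivAt.fun_sum fun j _ => hq j

lemma dotQuad_pos {H : Matrix (Fin n) (Fin n) ℝ} (hH : H.PosDef) {v : EuclideanSpace ℝ (Fin n)}
    (hv : v ≠ 0) : 0 < ∑ i, ∑ j, v i * H i j * v j := by
  have h : (fun i => v i) ≠ 0 := fun h => hv (by ext i; exact congrFun h i)
  have := hH.dotProduct_mulVec_pos h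
  simpa [dotProduct, Matrix.mulVec, Finset.mul_sum, mul_assoc] using this

lemma tangent_lt (hΩ : IsOpen Ω) (hc : Convex ℝ Ω) (hu : ContDiffOn ℝ ∞ u Ω)
    (hpd : ∀ x ∈ Ω, (hessian u x).PosDef) {x y : EuclideanSpace ℝ (Fin n)} (hx : x ∈ Ω)
    (hy : y ∈ Ω) (hne : x ≠ y) : u x + ∑ j, (y j - x j) * pd u j x < u y := by
  set v := y - x with hv
  have hv0 : v ≠ 0 := sub_ne_zero.2 hne.symm
  have hmem : ∀ t ∈ Icc (0:ℝ) 1, x + t • v ∈ Ω := fun t ht => hc.add_smul_sub_mem hx hy ht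
  have hd := fun t (ht : t ∈ Icc (0:ℝ) 1) => line_deriv hΩ hu x v t (hmem t ht)
  obtain ⟨c, hc', hceq⟩ := exists_hasDerivAt_eq_slope (fun s : ℝ => u (x + s • v))
    (fun t => ∑ j, v j * pd u j (x + t • v)) zero_lt_one
    (fun t ht => (hd t ht).1.continuousAt.continuousWithinAt)
    (fun t ht => (hd t (Ioo_subset_Icc_self ht)).1)
  have hmono : StrictMonoOn (fun t : ℝ => ∑ j, v j * pd u j (x + t • v)) (Icc 0 1) := by
    refine strictMonoOn_of_hasDerivWithinAt_pos (convex_Icc 0 1)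
      (f' := fun t => ∑ i, ∑ j, v i * hessian u (x + t • v) i j * v j)
      (fun t ht => (hd t ht).2.continuousAt.continuousWithinAt) ?_ ?_
    · intro t ht
      exact (hd t (interior_subset ht)).2.hasDerivWithinAt
    · intro t ht
      exact dotQuad_pos (hpd _ (hmem t (interior_subset ht))) hv0
  have := hmono (by simp) (Ioo_subset_Icc_self hc') hc'.1
  simp only at this
  rw [hceq] at this
  simp [hv] at this ⊢
  linarith

lemma tangent_le (hΩ : IsOpen Ω) (hc : Convex ℝ Ω) (hu : ContDiffOn ℝ ∞ u Ω)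
    (hpd : ∀ x ∈ Ω, (hessian u x).PosDef) {x y : EuclideanSpace ℝ (Fin n)} (hx : x ∈ Ω)
    (hy : y ∈ Ω) : u x + ∑ j, (y j - x j) * pd u j x ≤ u y := by
  rcases eq_or_ne x y with rfl | h
  · simp
  · exact (tangent_lt hΩ hc hu hpd hx hy h).le

/-- On a complete convex graph, the sets where `u` is bounded above do not reach `∂Ω`. -/
lemma mem_of_bddAbove (hΩ : IsOpen Ω) (hc : Convex ℝ Ω) (hu : ContDiffOn ℝ ∞ u Ω)
    (hpd : ∀ x ∈ Ω, (hessian u x).PosDef) (hcomp : EuclideanComplete Ω u)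
    {x₀ : EuclideanSpace ℝ (Fin n)} (h0 : x₀ ∈ Ω) {M : ℝ} {b : EuclideanSpace ℝ (Fin n)}
    (hb : b ∈ closure {x | x ∈ Ω ∧ u x ≤ M}) : b ∈ Ω := by
  set v := b - x₀ with hv
  set L : ℝ → EuclideanSpace ℝ (Fin n) := fun t => x₀ + t • v with hL
  have hbΩ : b ∈ closure Ω := closure_mono (fun x hx => hx.1) hb
  have hmem : ∀ t ∈ Ico (0:ℝ) 1, L t ∈ Ω := by
    intro t ht
    have : b + (1 - t) • (x₀ - b) ∈ interior Ω :=
      hc.add_smul_sub_mem_interior' hbΩ (by rwa [hΩ.interior_eq]) ⟨by linarith [ht.2], by linarith [ht.1]⟩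
    rw [hΩ.interior_eq] at this
    convert this using 1
    simp only [hL, hv]; module
  set M' : ℝ := max M (u x₀) with hM'
  have hle : ∀ t ∈ Ico (0:ℝ) 1, u (L t) ≤ M' := by
    intro t ht
    obtain ⟨xs, hxs, hlim⟩ := mem_closure_iff_seq_limit.1 hb
    have hl : Tendsto (fun k => u (x₀ + t • (xs k - x₀))) atTop (𝓝 (u (L t))) :=
      ((diffAt hΩ hu (hmem t ht)).continuousAt.tendsto).comp
        ((((hlim.sub_const x₀).const_smul t)).const_add x₀)
    refine le_of_tendsto' hl fun k => ?_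
    have hk := (hxs k).1
    have hz : x₀ + t • (xs k - x₀) ∈ Ω := hc.add_smul_sub_mem h0 hk ⟨ht.1, ht.2.le⟩
    have e1 := tangent_le hΩ hc hu hpd hz h0
    have e2 := tangent_le hΩ hc hu hpd hz hk
    have e3 : (1 - t) * ∑ j, (x₀ j - (x₀ + t • (xs k - x₀)) j) * pd u j (x₀ + t • (xs k - x₀))
        + t * ∑ j, (xs k j - (x₀ + t • (xs k - x₀)) j) * pd u j (x₀ + t • (xs k - x₀)) = 0 := by
      rw [Finset.mul_sum, Finset.mul_sum, ← Finset.sum_add_distrib]
      refine Finset.sum_eq_zero fun j _ => ?_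
      simp; ring
    have h4 := mul_le_mul_of_nonneg_left e1 (by linarith [ht.2] : 0 ≤ 1 - t)
    have h5 := mul_le_mul_of_nonneg_left e2 ht.1
    have h6 : (1 - t) * u x₀ ≤ (1 - t) * M' :=
      mul_le_mul_of_nonneg_left (le_max_right _ _) (by linarith [ht.2])
    have h7 : t * u (xs k) ≤ t * M' :=
      mul_le_mul_of_nonneg_left ((hxs k).2.trans (le_max_left _ _)) ht.1
    nlinarith
  set A : ℝ := ∑ j, v j * pd u j x₀ with hA
  set g : ℝ → ℝ := fun t => u (L t) - A * t with hg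
  have hgm : MonotoneOn g (Ico 0 1) := by
    intro s hs t ht hst
    have e1 := tangent_le hΩ hc hu hpd (hmem s hs) (hmem t ht)
    have e2 := tangent_le hΩ hc hu hpd h0 (hmem s hs)
    have e3 := tangent_le hΩ hc hu hpd (hmem s hs) h0
    have p1 : ∑ j, (L t j - L s j) * pd u j (L s) = (t - s) * ∑ j, v j * pd u j (L s) := by
      rw [Finset.mul_sum]; exact Finset.sum_congr rfl fun j _ => by simp [hL]; ring
    have p2 : ∑ j, (L s j - x₀ j) * pd u j x₀ = s * A := by
      rw [hA, Finset.mul_sum]; exact Finset.sum_congr rfl fun j _ => by simp [hL]; ring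
    have p3 : ∑ j, (x₀ j - L s j) * pd u j (L s) = -(s * ∑ j, v j * pd u j (L s)) := by
      rw [Finset.mul_sum, ← Finset.sum_neg_distrib]
      exact Finset.sum_congr rfl fun j _ => by simp [hL]; ring
    rw [p1] at e1; rw [p2] at e2; rw [p3] at e3
    rcases hs.1.eq_or_lt with h | h
    · subst h
      have hL0 : L 0 = x₀ := by simp [hL]
      rw [hL0] at e1
      simp only [hg, hL0, ← hA] at e1 ⊢
      linarith
    · have hB : A ≤ ∑ j, v j * pd u j (L s) := by
        by_contra hlt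
        push Not at hlt
        nlinarith
      simp only [hg]
      nlinarith
  have hgb : ∀ t ∈ Ico (0:ℝ) 1, g t ≤ M' + |A| := by
    intro t ht
    have h1 : -(A * t) ≤ |A| := by
      calc -(A * t) ≤ |A * t| := neg_le_abs _
        _ = |A| * t := by rw [abs_mul, abs_of_nonneg ht.1]
        _ ≤ |A| * 1 := by gcongr; exact ht.2.le
        _ = |A| := mul_one _
    simp only [hg]
    linarith [hle t ht]
  have hvar : eVariationOn (fun t => (L t, u (L t))) (Ico 0 1) ≠ ⊤ := by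
    set C : ℝ := ‖v‖ + |A| + (M' + |A| - g 0) with hC
    refine ne_top_of_le_ne_top (ENNReal.ofReal_ne_top (r := C)) ?_
    refine iSup_le fun p => ?_
    obtain ⟨N, w, hwm, hws⟩ := p
    simp only
    have hstep : ∀ i, edist (L (w (i+1)), u (L (w (i+1)))) (L (w i), u (L (w i))) ≤
        ENNReal.ofReal ((‖v‖ + |A|) * (w (i+1) - w i) + (g (w (i+1)) - g (w i))) := by
      intro i
      have h1 : 0 ≤ w (i+1) - w i := sub_nonneg.2 (hwm (Nat.le_succ i))
      have h2 : 0 ≤ g (w (i+1)) - g (w i) :=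
        sub_nonneg.2 (hgm (hws i) (hws (i+1)) (hwm (Nat.le_succ i)))
      have hA' : -|A| * (w (i+1) - w i) ≤ A * (w (i+1) - w i) ∧
          A * (w (i+1) - w i) ≤ |A| * (w (i+1) - w i) :=
        ⟨mul_le_mul_of_nonneg_right (neg_abs_le A) h1, mul_le_mul_of_nonneg_right (le_abs_self A) h1⟩
      rw [edist_dist]
      refine ENNReal.ofReal_le_ofReal ?_
      rw [Prod.dist_eq, max_le_iff]
      constructor
      · have e : L (w (i+1)) - L (w i) = (w (i+1) - w i) • v := by simp only [hL]; module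
        rw [dist_eq_norm, e, norm_smul, Real.norm_of_nonneg h1]
        nlinarith [abs_nonneg A, norm_nonneg v]
      · rw [Real.dist_eq, abs_le]
        simp only [hg] at h2 ⊢
        have := mul_nonneg (norm_nonneg v) h1
        constructor <;> nlinarith [hA'.1, hA'.2]
    refine (Finset.sum_le_sum fun i _ => hstep i).trans ?_
    rw [← ENNReal.ofReal_sum_of_nonneg (fun i _ => by
      have h1 : 0 ≤ w (i+1) - w i := sub_nonneg.2 (hwm (Nat.le_succ i))
      have h2 : 0 ≤ g (w (i+1)) - g (w i) :=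
        sub_nonneg.2 (hgm (hws i) (hws (i+1)) (hwm (Nat.le_succ i)))
      positivity)]
    refine ENNReal.ofReal_le_ofReal ?_
    rw [Finset.sum_add_distrib, ← Finset.mul_sum, Finset.sum_range_sub,
      Finset.sum_range_sub (fun i => g (w i))]
    have h3 := hgb _ (hws N)
    have h4 : g 0 ≤ g (w 0) := hgm (by simp) (hws 0) (hws 0).1
    have h5 : w N - w 0 ≤ 1 := by linarith [(hws N).2, (hws 0).1]
    have h6 := mul_le_mul_of_nonneg_left h5 (by positivity : 0 ≤ ‖v‖ + |A|)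
    linarith
  have hLc : Continuous L := by fun_prop
  obtain ⟨x, hx, hlim⟩ := hcomp L hLc.continuousOn hmem hvar
  have h1 : Tendsto L (𝓝[<] 1) (𝓝 (L 1)) := (hLc.tendsto 1).mono_left nhdsWithin_le_nhds
  have : L 1 = b := by simp [hL, hv]
  rw [← this, tendsto_nhds_unique h1 hlim]
  exact hx

/-- A bounded subset of `Ω` where `u` is bounded above and which is cut out by a continuous
function is compact. -/
lemma compact_sublevel (hΩ : IsOpen Ω) (hc : Convex ℝ Ω) (hu : ContDiffOn ℝ ∞ u Ω)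
    (hpd : ∀ x ∈ Ω, (hessian u x).PosDef) (hcomp : EuclideanComplete Ω u)
    {x₀ : EuclideanSpace ℝ (Fin n)} (h0 : x₀ ∈ Ω) {P : EuclideanSpace ℝ (Fin n) → ℝ}
    (hP : ContinuousOn P Ω) {T M ρ : ℝ}
    (hbd : ∀ x ∈ Ω, P x ≤ T → ‖x‖ ≤ ρ ∧ u x ≤ M) :
    IsCompact {x | x ∈ Ω ∧ P x ≤ T} := by
  refine Metric.isCompact_of_isClosed_isBounded ?_ ?_
  · rw [← closure_subset_iff_isClosed]
    intro b hb
    have hbΩ : b ∈ Ω := mem_of_bddAbove hΩ hc hu hpd hcomp h0
      (closure_mono (t := {x | x ∈ Ω ∧ u x ≤ M}) (fun x hx => ⟨hx.1, (hbd x hx.1 hx.2).2⟩) hb)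
    refine ⟨hbΩ, ?_⟩
    obtain ⟨xs, hxs, hlim⟩ := mem_closure_iff_seq_limit.1 hb
    exact le_of_tendsto' ((hP.continuousAt (hΩ.mem_nhds hbΩ)).tendsto.comp hlim)
      fun k => (hxs k).2
  · exact (Metric.isBounded_closedBall (x := (0 : EuclideanSpace ℝ (Fin n))) (r := ρ)).subset
      fun x hx => by simpa [dist_zero_right] using (hbd x hx.1 hx.2).1

end Vale.Agent.P252.Growth
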