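import Vale.Agent.P252.Growth.Core
import Vale.Agent.P252.Growth.Prop

namespace Vale.Agent.P252.Growth

open Matrix Filter Topology Set
open scoped ContDiff

variable {n : ℕ}

/-- Logarithm of the Hessian determinant. -/
noncomputable def ld (u : EuclideanSpace ℝ (Fin n) → ℝ) (x : EuclideanSpace ℝ (Fin n)) : ℝ :=
  Real.log (hessian u x).det

/-- The hypotheses of the problem. -/
structure IsAMGraph (Ω : Set (EuclideanSpace ℝ (Fin n))) (u : EuclideanSpace ℝ (Fin n) → ℝ) :
    Prop where
  isOpen : IsOpen Ω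
  convex : Convex ℝ Ω
  smooth : ContDiffOn ℝ ∞ u Ω
  posDef : ∀ x ∈ Ω, (hessian u x).PosDef
  eqn : ∀ x ∈ Ω, ∑ i, ∑ j, ((hessian u x).det • (hessian u x)⁻¹) i j *
        hessian (fun z => (hessian u z).det ^ (-((n : ℝ) + 1) / ((n : ℝ) + 2))) x i j = 0
  complete : EuclideanComplete Ω u

variable {Ω : Set (EuclideanSpace ℝ (Fin n))} {u : EuclideanSpace ℝ (Fin n) → ℝ}
  {x : EuclideanSpace ℝ (Fin n)}

namespace IsAMGraph

lemma pd_u (h : IsAMGraph Ω u) (k : Fin n) : ContDiffOn ℝ ∞ (pd u k) Ω :=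
  pd_contDiffOn h.isOpen h.smooth k

lemma hess_smooth (h : IsAMGraph Ω u) (a b : Fin n) :
    ContDiffOn ℝ ∞ (fun y => hessian u y a b) Ω :=
  pd_contDiffOn h.isOpen (h.pd_u b) a

lemma hess_symm (h : IsAMGraph Ω u) (hx : x ∈ Ω) (a b : Fin n) :
    hessian u x a b = hessian u x b a :=
  pd_symm h.isOpen h.smooth hx a b

lemma inv_symm (h : IsAMGraph Ω u) (hx : x ∈ Ω) (a b : Fin n) :
    (hessian u x)⁻¹ a b = (hessian u x)⁻¹ b a := by
  have := (h.posDef x hx).inv.isHermitian.apply b a
  simpa using this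

lemma inv_mul (h : IsAMGraph Ω u) (hx : x ∈ Ω) (a b : Fin n) :
    ∑ k, (hessian u x)⁻¹ a k * hessian u x k b = if a = b then 1 else 0 := by
  have := congrFun (congrFun (Matrix.nonsing_inv_mul (hessian u x)
    (isUnit_iff_ne_zero.2 (h.posDef x hx).det_pos.ne')) a) b
  rw [Matrix.mul_apply, Matrix.one_apply] at this
  exact this

lemma ld_smooth (h : IsAMGraph Ω u) : ContDiffOn ℝ ∞ (ld u) Ω := by
  have hdet : ContDiffOn ℝ ∞ (fun y => (hessian u y).det) Ω := by
    simp only [Matrix.det_apply']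
    exact ContDiffOn.sum fun σ _ => contDiffOn_const.mul (contDiffOn_prod fun i _ => h.hess_smooth _ _)
  exact hdet.log fun y hy => (h.posDef y hy).det_pos.ne'

lemma pd_ld (h : IsAMGraph Ω u) (hx : x ∈ Ω) (k : Fin n) :
    pd (ld u) k x = ∑ i, ∑ l, (hessian u x)⁻¹ i l * pd (fun y => hessian u y l i) k x := by
  have hd : 0 < (hessian u x).det := (h.posDef x hx).det_pos
  have hdiff : DifferentiableAt ℝ (fun y => (hessian u y).det) x := by
    simp only [Matrix.det_apply']
    exact DifferentiableAt.fun_sum fun σ _ => (differentiableAt_const _).mul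
      ((HasFDerivAt.finsetProd fun i _ => (diffAt h.isOpen (h.hess_smooth _ _) hx).hasFDerivAt).differentiableAt)
  show pd (fun y => Real.log ((hessian u y).det)) k x = _
  rw [pd_comp (φ := Real.log) (Real.hasDerivAt_log hd.ne') hdiff,
    pd_det (fun a b => diffAt h.isOpen (h.hess_smooth a b) hx), Finset.mul_sum]
  refine Finset.sum_congr rfl fun i _ => ?_
  rw [Finset.mul_sum]
  refine Finset.sum_congr rfl fun l _ => ?_
  simp [Matrix.inv_def, mul_assoc]

lemma pd_hess_symm (h : IsAMGraph Ω u) (hx : x ∈ Ω) (i j k : Fin n) :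
    pd (fun y => hessian u y j k) i x = pd (fun y => hessian u y j i) k x := by
  calc pd (fun y => hessian u y j k) i x = pd (fun y => hessian u y k j) i x :=
        pd_congr_on h.isOpen (fun y hy => h.hess_symm hy j k) hx i
    _ = pd (fun y => hessian u y i j) k x := pd_symm h.isOpen (h.pd_u j) hx i k
    _ = pd (fun y => hessian u y j i) k x :=
        pd_congr_on h.isOpen (fun y hy => h.hess_symm hy i j) hx k

/-- The trace of the third derivatives against the inverse Hessian. -/
lemma trace_third (h : IsAMGraph Ω u) (hx : x ∈ Ω) (k : Fin n) :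
    ∑ i, ∑ j, (hessian u x)⁻¹ i j * pd (fun y => hessian u y j k) i x = pd (ld u) k x := by
  rw [h.pd_ld hx]
  exact Finset.sum_congr rfl fun i _ => Finset.sum_congr rfl fun j _ => by
    rw [h.pd_hess_symm hx i j k]

lemma am (h : IsAMGraph Ω u) (hx : x ∈ Ω) :
    ∑ i, ∑ j, (hessian u x)⁻¹ i j * pd (pd (ld u) j) i x =
      ((n : ℝ) + 1) / ((n : ℝ) + 2) *
        bil (hessian u x)⁻¹ (fun i => pd (ld u) i x) (fun i => pd (ld u) i x) := by
  set a : ℝ := -((n : ℝ) + 1) / ((n : ℝ) + 2) with ha
  have ha0 : a ≠ 0 := div_ne_zero (by linarith [(Nat.cast_nonneg n : (0:ℝ) ≤ n)]) (by positivity)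
  have hw : EqOn (fun z => (hessian u z).det ^ a) (fun z => Real.exp (a * ld u z)) Ω := fun z hz => by
    simp only [ld]
    rw [Real.rpow_def_of_pos (h.posDef z hz).det_pos, mul_comm]
  have h1 : ∀ z, HasDerivAt (fun s => Real.exp (a * s)) (a * Real.exp (a * z)) z := fun z => by
    simpa [mul_comm] using ((hasDerivAt_id z).const_mul a).exp
  have h2 : HasDerivAt (fun s => a * Real.exp (a * s)) (a * (a * Real.exp (a * ld u x))) (ld u x) :=
    (h1 _).const_mul a
  have e : ∀ i j, hessian (fun z => (hessian u z).det ^ a) x i j =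
      a * Real.exp (a * ld u x) * pd (pd (ld u) j) i x
        + a * (a * Real.exp (a * ld u x)) * pd (ld u) i x * pd (ld u) j x := by
    intro i j
    rw [hessian_eq, pd_congr_on h.isOpen (g := pd (fun z => Real.exp (a * ld u z)) j)
      (fun z hz => pd_congr_on h.isOpen hw hz j) hx i,
      pd_pd_comp h.isOpen h.ld_smooth hx (φ' := fun s => a * Real.exp (a * s))
        (fun z _ => h1 _) h2]
  have h0 := h.eqn x hx
  rw [← ha] at h0
  simp only [e, Matrix.smul_apply, smul_eq_mul] at h0
  have h3 : (hessian u x).det * (a * Real.exp (a * ld u x)) *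
      (∑ i, ∑ j, (hessian u x)⁻¹ i j * pd (pd (ld u) j) i x +
        a * bil (hessian u x)⁻¹ (fun i => pd (ld u) i x) (fun i => pd (ld u) i x)) = 0 := by
    rw [← h0]
    simp only [bil, Finset.mul_sum, mul_add, ← Finset.sum_add_distrib]
    exact Finset.sum_congr rfl fun i _ => Finset.sum_congr rfl fun j _ => by ring
  have h4 := (mul_eq_zero.1 h3).resolve_left
    (mul_ne_zero (h.posDef x hx).det_pos.ne' (mul_ne_zero ha0 (Real.exp_pos _).ne'))
  rw [show a = -(((n : ℝ) + 1) / ((n : ℝ) + 2)) by rw [ha]; ring] at h4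
  linarith

lemma sum_inv_hess (h : IsAMGraph Ω u) (hx : x ∈ Ω) :
    ∑ i, ∑ j, (hessian u x)⁻¹ i j * hessian u x i j = n := by
  have : ∀ i, ∑ j, (hessian u x)⁻¹ i j * hessian u x i j = 1 := fun i => by
    have := h.inv_mul hx i i
    simp only [if_true] at this
    rw [← this]
    exact Finset.sum_congr rfl fun j _ => by rw [h.hess_symm hx i j]
  simp [this]

/-- Contracting `H⁻¹` with `H v` returns `v`. -/
lemma bil_hess (h : IsAMGraph Ω u) (hx : x ∈ Ω) (w v : Fin n → ℝ) :
    bil (hessian u x)⁻¹ w (fun j => ∑ k, hessian u x j k * v k) = ∑ i, w i * v i := by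
  refine Finset.sum_congr rfl fun i _ => ?_
  calc ∑ j, (hessian u x)⁻¹ i j * w i * ∑ k, hessian u x j k * v k
      = w i * ∑ k, (∑ j, (hessian u x)⁻¹ i j * hessian u x j k) * v k := by
        simp only [Finset.mul_sum, Finset.sum_mul]
        rw [Finset.sum_comm]
        exact Finset.sum_congr rfl fun k _ => Finset.sum_congr rfl fun j _ => by ring
    _ = w i * v i := by simp [h.inv_mul hx]

lemma bil_neg_left (G : Matrix (Fin n) (Fin n) ℝ) (v w : Fin n → ℝ) :
    bil G (fun i => -v i) w = -bil G v w := by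
  simp [bil]

lemma bil_neg_right (G : Matrix (Fin n) (Fin n) ℝ) (v w : Fin n → ℝ) :
    bil G v (fun i => -w i) = -bil G v w := by
  simp [bil]

lemma drift (u : EuclideanSpace ℝ (Fin n) → ℝ) (v : Fin n → ℝ) (x : EuclideanSpace ℝ (Fin n)) :
    ∑ i, (-∑ k, (hessian u x)⁻¹ k i * pd (ld u) k x) * v i =
      -bil (hessian u x)⁻¹ (fun i => pd (ld u) i x) v := by
  simp only [bil, neg_mul, Finset.sum_neg_distrib, Finset.sum_mul]
  rw [Finset.sum_comm]

/-- The gradient Bregman function. -/
noncomputable def primalP (u : EuclideanSpace ℝ (Fin n) → ℝ) (x₀ x : EuclideanSpace ℝ (Fin n)) : ℝ :=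
  u x - u x₀ - ∑ j, (x j - x₀ j) * pd u j x₀

/-- Half of the squared gradient difference. -/
noncomputable def primalZ (u : EuclideanSpace ℝ (Fin n) → ℝ) (x₀ x : EuclideanSpace ℝ (Fin n)) : ℝ :=
  1 / 2 * ∑ k, (pd u k x - pd u k x₀) ^ 2

/-- The Legendre-dual Bregman function. -/
noncomputable def dualP (u : EuclideanSpace ℝ (Fin n) → ℝ) (x₀ x : EuclideanSpace ℝ (Fin n)) : ℝ :=
  ∑ j, (x j - x₀ j) * pd u j x - (u x - u x₀)

/-- Half of the squared distance. -/
noncomputable def dualZ (x₀ x : EuclideanSpace ℝ (Fin n)) : ℝ :=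
  1 / 2 * ∑ k, (x k - x₀ k) ^ 2

lemma primalP_smooth (h : IsAMGraph Ω u) (x₀ : EuclideanSpace ℝ (Fin n)) :
    ContDiffOn ℝ ∞ (primalP u x₀) Ω :=
  (h.smooth.sub contDiffOn_const).sub
    (ContDiffOn.sum fun j _ => ((coord_contDiff j).contDiffOn.sub contDiffOn_const).mul contDiffOn_const)

lemma dualP_smooth (h : IsAMGraph Ω u) (x₀ : EuclideanSpace ℝ (Fin n)) :
    ContDiffOn ℝ ∞ (dualP u x₀) Ω :=
  (ContDiffOn.sum fun j _ => ((coord_contDiff j).contDiffOn.sub contDiffOn_const).mul (h.pd_u j)).sub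
    (h.smooth.sub contDiffOn_const)

lemma pd_primalP (h : IsAMGraph Ω u) (x₀ : EuclideanSpace ℝ (Fin n)) (hx : x ∈ Ω) (i : Fin n) :
    pd (primalP u x₀) i x = pd u i x - pd u i x₀ := by
  have hc : ∀ j : Fin n, DifferentiableAt ℝ (fun y : EuclideanSpace ℝ (Fin n) => y j - x₀ j) x :=
    fun j => ((coord_contDiff j).differentiable (by simp) x).sub_const _
  have hu := diffAt h.isOpen h.smooth hx
  unfold primalP
  rw [pd_sub (f := fun y => u y - u x₀) (hu.sub_const _)
      (DifferentiableAt.fun_sum fun j _ => (hc j).mul_const _),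
    pd_sub hu (differentiableAt_const _), pd_const,
    pd_sum (fun j _ => (hc j).mul_const _)]
  have e : ∀ j, pd (fun y : EuclideanSpace ℝ (Fin n) => (y j - x₀ j) * pd u j x₀) i x =
      if j = i then pd u j x₀ else 0 := fun j => by
    rw [pd_mul (hc j) (differentiableAt_const _), pd_const,
      pd_sub ((coord_contDiff j).differentiable (by simp) x) (differentiableAt_const _), pd_const,
      pd_coord]
    split <;> simp
  simp [e]

lemma pd_dualP (h : IsAMGraph Ω u) (x₀ : EuclideanSpace ℝ (Fin n)) (hx : x ∈ Ω) (i : Fin n) :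
    pd (dualP u x₀) i x = ∑ k, hessian u x i k * (x k - x₀ k) := by
  have hc : ∀ j : Fin n, DifferentiableAt ℝ (fun y : EuclideanSpace ℝ (Fin n) => y j - x₀ j) x :=
    fun j => ((coord_contDiff j).differentiable (by simp) x).sub_const _
  have hu := diffAt h.isOpen h.smooth hx
  have hp := fun j => diffAt h.isOpen (h.pd_u j) hx
  unfold dualP
  rw [pd_sub (g := fun y => u y - u x₀)
      (DifferentiableAt.fun_sum fun j _ => (hc j).fun_mul (hp j)) (hu.sub_const _),
    pd_sub hu (differentiableAt_const _), pd_const, pd_sum (fun j _ => (hc j).fun_mul (hp j))]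
  have e : ∀ j, pd (fun y : EuclideanSpace ℝ (Fin n) => (y j - x₀ j) * pd u j y) i x =
      hessian u x i j * (x j - x₀ j) + if j = i then pd u j x else 0 := fun j => by
    rw [pd_mul (hc j) (hp j),
      pd_sub ((coord_contDiff j).differentiable (by simp) x) (differentiableAt_const _), pd_const,
      pd_coord, hessian_eq]
    split <;> ring
  simp [e, Finset.sum_add_distrib]

lemma pd_dualZ (x₀ x : EuclideanSpace ℝ (Fin n)) (i : Fin n) :
    pd (dualZ x₀) i x = x i - x₀ i := by
  have hc : ∀ j : Fin n, DifferentiableAt ℝ (fun y : EuclideanSpace ℝ (Fin n) => y j - x₀ j) x :=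
    fun j => ((coord_contDiff j).differentiable (by simp) x).sub_const _
  unfold dualZ
  rw [pd_const_mul (DifferentiableAt.fun_sum fun j _ => (hc j).fun_pow 2),
    pd_sum (fun j _ => (hc j).fun_pow 2)]
  have e : ∀ j, pd (fun y : EuclideanSpace ℝ (Fin n) => (y j - x₀ j) ^ 2) i x =
      if j = i then 2 * (x j - x₀ j) else 0 := fun j => by
    simp only [sq]
    rw [pd_mul (hc j) (hc j),
      pd_sub ((coord_contDiff j).differentiable (by simp) x) (differentiableAt_const _), pd_const,
      pd_coord]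
    split <;> ring
  simp [e]

lemma pd_primalZ (h : IsAMGraph Ω u) (x₀ : EuclideanSpace ℝ (Fin n)) (hx : x ∈ Ω) (i : Fin n) :
    pd (primalZ u x₀) i x = ∑ k, hessian u x i k * (pd u k x - pd u k x₀) := by
  have hc : ∀ j : Fin n, DifferentiableAt ℝ (fun y => pd u j y - pd u j x₀) x :=
    fun j => (diffAt h.isOpen (h.pd_u j) hx).sub_const _
  unfold primalZ
  rw [pd_const_mul (DifferentiableAt.fun_sum fun j _ => (hc j).fun_pow 2),
    pd_sum (fun j _ => (hc j).fun_pow 2), Finset.mul_sum]
  refine Finset.sum_congr rfl fun j _ => ?_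
  simp only [sq]
  rw [pd_mul (hc j) (hc j), pd_sub (diffAt h.isOpen (h.pd_u j) hx) (differentiableAt_const _),
    pd_const, hessian_eq]
  ring

lemma tangent (h : IsAMGraph Ω u) {a b : EuclideanSpace ℝ (Fin n)} (ha : a ∈ Ω) (hb : b ∈ Ω) :
    u a + ∑ j, (b j - a j) * pd u j a ≤ u b :=
  tangent_le h.isOpen h.convex h.smooth h.posDef ha hb

lemma primalP_nonneg (h : IsAMGraph Ω u) {x₀ : EuclideanSpace ℝ (Fin n)} (h0 : x₀ ∈ Ω)
    (hx : x ∈ Ω) : 0 ≤ primalP u x₀ x := by
  have := h.tangent h0 hx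
  unfold primalP; linarith

lemma dualP_nonneg (h : IsAMGraph Ω u) {x₀ : EuclideanSpace ℝ (Fin n)} (h0 : x₀ ∈ Ω)
    (hx : x ∈ Ω) : 0 ≤ dualP u x₀ x := by
  have := h.tangent hx h0
  have e : ∑ j, (x₀ j - x j) * pd u j x = -∑ j, (x j - x₀ j) * pd u j x := by
    rw [← Finset.sum_neg_distrib]; exact Finset.sum_congr rfl fun j _ => by ring
  rw [e] at this
  unfold dualP; linarith

lemma primal_compact (h : IsAMGraph Ω u) (hn : 1 ≤ n) {x₀ : EuclideanSpace ℝ (Fin n)}
    (h0 : x₀ ∈ Ω) (T : ℝ) : IsCompact {x | x ∈ Ω ∧ primalP u x₀ x ≤ T} := by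
  haveI : Nonempty (Fin n) := ⟨⟨0, hn⟩⟩
  obtain ⟨r, hr, hball⟩ := Metric.nhds_basis_closedBall.mem_iff.1 (h.isOpen.mem_nhds h0)
  have hsΩ : Metric.sphere x₀ r ⊆ Ω := Metric.sphere_subset_closedBall.trans hball
  obtain ⟨s, hs, hsmin⟩ := (isCompact_sphere x₀ r).exists_isMinOn
    (NormedSpace.sphere_nonempty.2 hr.le) ((h.primalP_smooth x₀).continuousOn.mono hsΩ)
  set c := primalP u x₀ s with hc
  have hcpos : 0 < c := by
    have hne : x₀ ≠ s := fun e => by subst e; simp at hs; linarith
    have := tangent_lt h.isOpen h.convex h.smooth h.posDef h0 (hsΩ hs) hne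
    simp only [hc, primalP]; linarith
  set ρ : ℝ := max r (r * T / c) with hρ
  have hfar : ∀ x ∈ Ω, primalP u x₀ x ≤ T → ‖x - x₀‖ ≤ ρ := by
    intro x hx hxT
    rcases le_or_gt ‖x - x₀‖ r with hle | hgt
    · exact hle.trans (le_max_left _ _)
    refine le_trans ?_ (le_max_right _ _)
    have hpos : 0 < ‖x - x₀‖ := hr.trans hgt
    set t := r / ‖x - x₀‖ with ht
    have ht1 : t ≤ 1 := (div_le_one hpos).2 hgt.le
    have ht0 : 0 < t := div_pos hr hpos
    set y := x₀ + t • (x - x₀) with hy
    have hyΩ : y ∈ Ω := h.convex.add_smul_sub_mem h0 hx ⟨ht0.le, ht1⟩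
    have hys : y ∈ Metric.sphere x₀ r := by
      simp [hy, norm_smul, abs_of_pos ht0]
      rw [ht]; field_simp
    have e1 := h.tangent hyΩ h0
    have e2 := h.tangent hyΩ hx
    have e3 : (1 - t) * ∑ j, (x₀ j - y j) * pd u j y + t * ∑ j, (x j - y j) * pd u j y = 0 := by
      rw [Finset.mul_sum, Finset.mul_sum, ← Finset.sum_add_distrib]
      refine Finset.sum_eq_zero fun j _ => ?_
      simp [hy]; ring
    have e4 : ∑ j, (y j - x₀ j) * pd u j x₀ = t * ∑ j, (x j - x₀ j) * pd u j x₀ := by
      rw [Finset.mul_sum]; exact Finset.sum_congr rfl fun j _ => by simp [hy]; ring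
    have h4 := mul_le_mul_of_nonneg_left e1 (by linarith : 0 ≤ 1 - t)
    have h5 := mul_le_mul_of_nonneg_left e2 ht0.le
    have h6 : c ≤ primalP u x₀ y := hsmin hys
    have h7 : primalP u x₀ y ≤ t * primalP u x₀ x := by
      unfold primalP; rw [e4]; nlinarith
    have h8 : c ≤ t * T := h6.trans (h7.trans (mul_le_mul_of_nonneg_left hxT ht0.le))
    rw [le_div_iff₀ hcpos]
    rw [ht, div_mul_eq_mul_div, le_div_iff₀ hpos] at h8
    linarith
  refine compact_sublevel (ρ := ρ + ‖x₀‖) (M := T + u x₀ + ‖fderiv ℝ u x₀‖ * ρ)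
    h.isOpen h.convex h.smooth h.posDef h.complete h0 (h.primalP_smooth x₀).continuousOn ?_
  intro x hx hxT
  have h1 := hfar x hx hxT
  refine ⟨by linarith [norm_le_norm_add_norm_sub' x x₀], ?_⟩
  have h2 : ∑ j, (x j - x₀ j) * pd u j x₀ ≤ ‖fderiv ℝ u x₀‖ * ρ := by
    have e : ∑ j, (x j - x₀ j) * pd u j x₀ = fderiv ℝ u x₀ (x - x₀) := by
      rw [fderiv_apply_eq_sum]; simp
    rw [e]
    exact (le_abs_self _).trans (((fderiv ℝ u x₀).le_opNorm (x - x₀)).trans
      (mul_le_mul_of_nonneg_left h1 (norm_nonneg _)))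
  unfold primalP at hxT
  linarith

lemma dual_compact (h : IsAMGraph Ω u) {x₀ : EuclideanSpace ℝ (Fin n)} (h0 : x₀ ∈ Ω)
    (hbd : ∀ T, ∃ ρ, ∀ x ∈ Ω, dualP u x₀ x ≤ T → ‖x - x₀‖ ≤ ρ) (T : ℝ) :
    IsCompact {x | x ∈ Ω ∧ dualP u x₀ x ≤ T} := by
  obtain ⟨ρ, hρ⟩ := hbd T
  obtain ⟨r, hr, hball⟩ := Metric.nhds_basis_closedBall.mem_iff.1 (h.isOpen.mem_nhds h0)
  obtain ⟨B, hB⟩ := (isCompact_closedBall x₀ r).exists_bound_of_continuousOn
    (h.smooth.continuousOn.mono hball)
  set K : ℝ := (T + B + |u x₀|) / r with hK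
  have hp : ∀ x ∈ Ω, dualP u x₀ x ≤ T → ∀ j, |pd u j x| ≤ K := by
    intro x hx hxT j
    have key : ∀ s : ℝ, |s| = r → s * pd u j x ≤ T + B + |u x₀| := by
      intro s hs
      set y := x₀ + s • EuclideanSpace.single j (1:ℝ) with hy
      have hyb : y ∈ Metric.closedBall x₀ r := by simp [hy, norm_smul, hs]
      have e1 := h.tangent hx (hball hyb)
      have e2 : ∑ k, (y k - x k) * pd u k x =
          s * pd u j x - ∑ k, (x k - x₀ k) * pd u k x := by
        have : ∀ k, (y k - x k) * pd u k x =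
            (if k = j then s * pd u k x else 0) - (x k - x₀ k) * pd u k x := fun k => by
          simp [hy, PiLp.single_apply]
          split <;> ring
        simp [this, Finset.sum_sub_distrib]
      have e3 : u y ≤ B := (le_abs_self _).trans (by simpa using hB y hyb)
      rw [e2] at e1
      unfold dualP at hxT
      linarith [neg_abs_le (u x₀)]
    rw [hK, le_div_iff₀ hr]
    rcases le_total 0 (pd u j x) with hj | hj
    · rw [abs_of_nonneg hj]; linarith [key r (abs_of_pos hr)]
    · rw [abs_of_nonpos hj]; linarith [key (-r) (by rw [abs_neg, abs_of_pos hr])]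
  refine compact_sublevel (ρ := ρ + ‖x₀‖) (M := ∑ _j : Fin n, ρ * K + u x₀)
    h.isOpen h.convex h.smooth h.posDef h.complete h0 (h.dualP_smooth x₀).continuousOn ?_
  intro x hx hxT
  have h1 := hρ x hx hxT
  refine ⟨by linarith [norm_le_norm_add_norm_sub' x x₀], ?_⟩
  have h2 : ∑ j, (x j - x₀ j) * pd u j x ≤ ∑ _j : Fin n, ρ * K := by
    refine Finset.sum_le_sum fun j _ => ?_
    calc (x j - x₀ j) * pd u j x ≤ |x j - x₀ j| * |pd u j x| := by
          rw [← abs_mul]; exact le_abs_self _
      _ ≤ ρ * K := by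
          have hj : |x j - x₀ j| ≤ ρ := le_trans (by simpa using PiLp.norm_apply_le (x - x₀) j) h1
          exact mul_le_mul hj (hp x hx hxT j) (abs_nonneg _) ((abs_nonneg _).trans hj)
  have h3 := h.dualP_nonneg h0 hx
  unfold dualP at h3
  linarith

/-- The setup in which `|Du - Du(x₀)|²` is controlled by the Bregman function of `u`. -/
noncomputable def primal (h : IsAMGraph Ω u) (hn : 1 ≤ n) {x₀ : EuclideanSpace ℝ (Fin n)}
    (h0 : x₀ ∈ Ω) : Setup n Ω where
  G := fun x => (hessian u x)⁻¹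
  b := fun _ _ => 0
  κ := ((n : ℝ) + 1) / ((n : ℝ) + 2)
  D := ld u
  P := primalP u x₀
  z := primalZ u x₀
  t := fun x => (hessian u x).trace
  isOpen := h.isOpen
  posDef := fun x hx => (h.posDef x hx).inv
  κ_lb := by rw [div_mul_cancel₀ _ (by positivity)]; linarith [(Nat.cast_nonneg n : (0:ℝ) ≤ n)]
  κ_ub := by rw [div_le_one (by positivity)]; linarith
  D_smooth := h.ld_smooth
  P_smooth := h.primalP_smooth x₀
  z_smooth := contDiffOn_const.mul (ContDiffOn.sum fun k _ => ((h.pd_u k).sub contDiffOn_const).pow 2)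
  op_D := fun x hx => by simp [op, h.am hx]
  op_P := fun x hx => by
    have e : ∀ i j, pd (pd (primalP u x₀) j) i x = hessian u x i j := fun i j => by
      rw [pd_congr_on h.isOpen (fun y hy => h.pd_primalP x₀ hy j) hx i,
        pd_sub (diffAt h.isOpen (h.pd_u j) hx) (differentiableAt_const _), pd_const, sub_zero]
      rfl
    simp [op, e, h.sum_inv_hess hx]
  op_z := fun x hx => by
    have hp := fun k => (diffAt h.isOpen (h.pd_u k) hx).sub_const (pd u k x₀)
    have hH := fun a b => diffAt h.isOpen (h.hess_smooth a b) hx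
    have e : ∀ i j, pd (pd (primalZ u x₀) j) i x =
        ∑ k, (hessian u x j k * hessian u x i k
          + (pd u k x - pd u k x₀) * pd (fun y => hessian u y j k) i x) := fun i j => by
      rw [pd_congr_on h.isOpen (fun y hy => h.pd_primalZ x₀ hy j) hx i,
        pd_sum (fun k _ => (hH j k).fun_mul (hp k))]
      refine Finset.sum_congr rfl fun k _ => ?_
      rw [pd_mul (hH j k) (hp k), pd_sub (diffAt h.isOpen (h.pd_u k) hx) (differentiableAt_const _),
        pd_const, sub_zero, hessian_eq u x i k]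
    have e1 : ∑ i, ∑ j, (hessian u x)⁻¹ i j * ∑ k, hessian u x j k * hessian u x i k =
        (hessian u x).trace := by
      simp only [Finset.mul_sum]
      refine Finset.sum_congr rfl fun i _ => ?_
      rw [Finset.sum_comm]
      have : ∀ k, ∑ j, (hessian u x)⁻¹ i j * (hessian u x j k * hessian u x i k) =
          if i = k then hessian u x i k else 0 := fun k => by
        simp only [← mul_assoc, ← Finset.sum_mul, h.inv_mul hx]
        split <;> simp
      simp [this]
    have e2 : ∑ i, ∑ j, (hessian u x)⁻¹ i j *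
        ∑ k, (pd u k x - pd u k x₀) * pd (fun y => hessian u y j k) i x =
        ∑ k, pd (ld u) k x * (pd u k x - pd u k x₀) := by
      calc _ = ∑ i, ∑ k, ∑ j, (hessian u x)⁻¹ i j *
              ((pd u k x - pd u k x₀) * pd (fun y => hessian u y j k) i x) := by
            simp only [Finset.mul_sum]
            exact Finset.sum_congr rfl fun i _ => Finset.sum_comm
        _ = ∑ k, ∑ i, ∑ j, (hessian u x)⁻¹ i j *
              ((pd u k x - pd u k x₀) * pd (fun y => hessian u y j k) i x) := Finset.sum_comm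
        _ = _ := by
            refine Finset.sum_congr rfl fun k _ => ?_
            rw [← h.trace_third hx k]
            simp only [Finset.sum_mul]
            exact Finset.sum_congr rfl fun i _ => Finset.sum_congr rfl fun j _ => by ring
    simp only [op, e, Finset.sum_add_distrib, mul_add, zero_mul, Finset.sum_const_zero, add_zero,
      h.pd_primalZ x₀ hx, h.bil_hess hx]
    rw [e1, e2]
  bil_Pz := fun x hx => by
    simp only [h.pd_primalZ x₀ hx, h.bil_hess hx, h.pd_primalP x₀ hx, primalZ]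
    simp [sq]
  bil_zz := fun x hx => by
    simp only [h.pd_primalZ x₀ hx, h.bil_hess hx, primalZ]
    have := quad_le_trace (h.posDef x hx) (fun k => pd u k x - pd u k x₀)
    refine le_trans (le_of_eq ?_) (this.trans_eq (by ring))
    simp only [Finset.sum_mul]
    exact Finset.sum_congr rfl fun i _ => Finset.sum_congr rfl fun j _ => by ring
  t_nonneg := fun x hx => (h.posDef x hx).posSemidef.trace_nonneg
  exp_D_le := fun x hx => by
    simp only [ld]
    rw [Real.exp_log (h.posDef x hx).det_pos]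
    exact det_le_trace_pow (h.posDef x hx)
  z_nonneg := fun x _ => mul_nonneg (by norm_num) (Finset.sum_nonneg fun k _ => sq_nonneg _)
  P_nonneg := fun x hx => h.primalP_nonneg h0 hx
  sublevel_compact := h.primal_compact hn h0

/-- The setup in which `|x - x₀|²` is controlled by the Legendre-dual Bregman function. -/
noncomputable def dual (h : IsAMGraph Ω u) {x₀ : EuclideanSpace ℝ (Fin n)} (h0 : x₀ ∈ Ω)
    (hbd : ∀ T, ∃ ρ, ∀ x ∈ Ω, dualP u x₀ x ≤ T → ‖x - x₀‖ ≤ ρ) : Setup n Ω where
  G := fun x => (hessian u x)⁻¹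
  b := fun x i => -∑ k, (hessian u x)⁻¹ k i * pd (ld u) k x
  κ := 1 / ((n : ℝ) + 2)
  D := fun x => -ld u x
  P := dualP u x₀
  z := dualZ x₀
  t := fun x => ((hessian u x)⁻¹).trace
  isOpen := h.isOpen
  posDef := fun x hx => (h.posDef x hx).inv
  κ_lb := le_of_eq (by field_simp)
  κ_ub := by rw [div_le_one (by positivity)]; linarith [(Nat.cast_nonneg n : (0:ℝ) ≤ n)]
  D_smooth := h.ld_smooth.neg
  P_smooth := h.dualP_smooth x₀
  z_smooth := (contDiff_const.mul
    (ContDiff.sum fun k _ => ((coord_contDiff k).sub contDiff_const).pow 2)).contDiffOn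
  op_D := fun x hx => by
    have e : ∀ i j, pd (pd (fun y => -ld u y) j) i x = -pd (pd (ld u) j) i x := fun i j => by
      rw [pd_congr_on h.isOpen (fun y _ => pd_neg (f := ld u) (x := y) j) hx i, pd_neg]
    have e2 := drift u (fun i => -pd (ld u) i x) x
    simp only [op, e, pd_neg]
    rw [e2]
    simp only [mul_neg, Finset.sum_neg_distrib, h.am hx, bil_neg_left, bil_neg_right]
    field_simp
    ring
  op_P := fun x hx => by
    have hy : ∀ k : Fin n, DifferentiableAt ℝ (fun y : EuclideanSpace ℝ (Fin n) => y k - x₀ k) x :=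
      fun k => ((coord_contDiff k).differentiable (by simp) x).sub_const _
    have hH := fun a b => diffAt h.isOpen (h.hess_smooth a b) hx
    have e : ∀ i j, pd (pd (dualP u x₀) j) i x = hessian u x j i +
        ∑ k, (x k - x₀ k) * pd (fun y => hessian u y j k) i x := fun i j => by
      rw [pd_congr_on h.isOpen (fun y hy => h.pd_dualP x₀ hy j) hx i,
        pd_sum (fun k _ => (hH j k).fun_mul (hy k))]
      have : ∀ k, pd (fun y => hessian u y j k * (y k - x₀ k)) i x =
          (if k = i then hessian u x j k else 0) +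
            (x k - x₀ k) * pd (fun y => hessian u y j k) i x := fun k => by
        rw [pd_mul (hH j k) (hy k),
          pd_sub ((coord_contDiff k).differentiable (by simp) x) (differentiableAt_const _),
          pd_const, pd_coord]
        split <;> simp
      simp [this, Finset.sum_add_distrib]
    have e1 : ∑ i, ∑ j, (hessian u x)⁻¹ i j * hessian u x j i = n := by
      simp [h.inv_mul hx]
    have e2 : ∑ i, ∑ j, (hessian u x)⁻¹ i j *
        ∑ k, (x k - x₀ k) * pd (fun y => hessian u y j k) i x =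
        ∑ k, pd (ld u) k x * (x k - x₀ k) := by
      calc _ = ∑ i, ∑ k, ∑ j, (hessian u x)⁻¹ i j *
              ((x k - x₀ k) * pd (fun y => hessian u y j k) i x) := by
            simp only [Finset.mul_sum]
            exact Finset.sum_congr rfl fun i _ => Finset.sum_comm
        _ = ∑ k, ∑ i, ∑ j, (hessian u x)⁻¹ i j *
              ((x k - x₀ k) * pd (fun y => hessian u y j k) i x) := Finset.sum_comm
        _ = _ := by
            refine Finset.sum_congr rfl fun k _ => ?_
            rw [← h.trace_third hx k]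
            simp only [Finset.sum_mul]
            exact Finset.sum_congr rfl fun i _ => Finset.sum_congr rfl fun j _ => by ring
    have e3 := drift u (fun i => pd (dualP u x₀) i x) x
    simp only [op, e, mul_add, Finset.sum_add_distrib, e1, e2, e3]
    simp only [h.pd_dualP x₀ hx, h.bil_hess hx]
    ring
  op_z := fun x hx => by
    have e : ∀ i j, pd (pd (dualZ x₀) j) i x = if j = i then 1 else 0 := fun i j => by
      rw [pd_congr_on h.isOpen (fun y _ => pd_dualZ x₀ y j) hx i,
        pd_sub ((coord_contDiff j).differentiable (by simp) x) (differentiableAt_const _), pd_const,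
        pd_coord, sub_zero]
    have e3 := drift u (fun i => pd (dualZ x₀) i x) x
    simp only [op, e, e3, pd_neg, bil_neg_left]
    simp [Matrix.trace]
  bil_Pz := fun x hx => by
    simp only [pd_dualZ, h.pd_dualP x₀ hx]
    rw [bil_comm (h.posDef x hx).inv, h.bil_hess hx]
    simp [dualZ, sq]
  bil_zz := fun x hx => by
    simp only [pd_dualZ, dualZ, bil]
    exact (quad_le_trace (h.posDef x hx).inv _).trans_eq (by ring)
  t_nonneg := fun x hx => (h.posDef x hx).inv.posSemidef.trace_nonneg
  exp_D_le := fun x hx => by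
    simp only [ld]
    rw [Real.exp_neg, Real.exp_log (h.posDef x hx).det_pos]
    refine le_trans (le_of_eq ?_) (det_le_trace_pow (h.posDef x hx).inv)
    rw [Matrix.det_nonsing_inv, Ring.inverse_eq_inv']
  z_nonneg := fun x _ => mul_nonneg (by norm_num) (Finset.sum_nonneg fun k _ => sq_nonneg _)
  P_nonneg := fun x hx => h.dualP_nonneg h0 hx
  sublevel_compact := h.dual_compact h0 hbd

end IsAMGraph

end Vale.Agent.P252.Growth
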