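import Vale.Agent.P252.Growth.Geometry

namespace Vale.Agent.P252.Growth

open Filter Topology Set

variable {n : ℕ} {Ω : Set (EuclideanSpace ℝ (Fin n))} {u : EuclideanSpace ℝ (Fin n) → ℝ}

/-- `|Du - Du(x₀)|² = o(Bregman function of u)` is impossible. -/
theorem not_subquadratic (h : IsAMGraph Ω u) (hn : 1 ≤ n) {x₀ : EuclideanSpace ℝ (Fin n)}
    (h0 : x₀ ∈ Ω)
    (hgr : ∀ ε > 0, ∃ T₀ : ℝ, ∀ T ≥ T₀, ∀ x ∈ Ω,
      u x - u x₀ - fderiv ℝ u x₀ (x - x₀) ≤ T → ‖fderiv ℝ u x - fderiv ℝ u x₀‖ ^ 2 ≤ ε * T) :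
    False := by
  refine (h.primal hn h0).contradiction hn h0 fun ε hε T₁ => ?_
  obtain ⟨T₀, hT₀⟩ := hgr (ε / n) (by positivity)
  refine ⟨max T₁ (max T₀ 0), le_max_left _ _, fun x hx hxT => ?_⟩
  set T := max T₁ (max T₀ 0)
  have hT0 : 0 ≤ T := (le_max_right _ _).trans (le_max_right _ _)
  have hT : T₀ ≤ 2 * T := by linarith [(le_max_left T₀ 0).trans (le_max_right T₁ (max T₀ 0))]
  have h1 := hT₀ (2 * T) hT x hx (by
    change IsAMGraph.primalP u x₀ x ≤ 2 * T at hxT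
    unfold IsAMGraph.primalP at hxT
    rw [fderiv_apply_eq_sum]
    simpa using hxT)
  show IsAMGraph.primalZ u x₀ x ≤ ε * T
  have h2 : ∀ k, (pd u k x - pd u k x₀) ^ 2 ≤ ‖fderiv ℝ u x - fderiv ℝ u x₀‖ ^ 2 := fun k => by
    rw [← sq_abs]
    refine pow_le_pow_left₀ (abs_nonneg _) ?_ 2
    simpa [pd] using (fderiv ℝ u x - fderiv ℝ u x₀).le_opNorm (EuclideanSpace.single k 1)
  have h3 : (∑ k, (pd u k x - pd u k x₀) ^ 2) ≤ n * (ε / n * (2 * T)) := by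
    refine (Finset.sum_le_sum fun k _ => (h2 k).trans h1).trans_eq ?_
    simp
  unfold IsAMGraph.primalZ
  have : (n : ℝ) * (ε / n * (2 * T)) = ε * (2 * T) := by field_simp
  linarith

/-- `|x - x₀|² = o(Legendre-dual Bregman function of u)` is impossible. -/
theorem not_superquadratic (h : IsAMGraph Ω u) (hn : 1 ≤ n) {x₀ : EuclideanSpace ℝ (Fin n)}
    (h0 : x₀ ∈ Ω)
    (hgr : ∀ ε > 0, ∃ T₀ : ℝ, ∀ T ≥ T₀, ∀ x ∈ Ω,
      u x₀ - u x - fderiv ℝ u x (x₀ - x) ≤ T → ‖x - x₀‖ ^ 2 ≤ ε * T) :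
    False := by
  have hP : ∀ x, IsAMGraph.dualP u x₀ x = u x₀ - u x - fderiv ℝ u x (x₀ - x) := fun x => by
    rw [fderiv_apply_eq_sum]
    simp only [IsAMGraph.dualP, PiLp.sub_apply]
    have : ∑ j, (x₀ j - x j) * pd u j x = -∑ j, (x j - x₀ j) * pd u j x := by
      rw [← Finset.sum_neg_distrib]; exact Finset.sum_congr rfl fun j _ => by ring
    rw [this]; ring
  have hbd : ∀ T, ∃ ρ, ∀ x ∈ Ω, IsAMGraph.dualP u x₀ x ≤ T → ‖x - x₀‖ ≤ ρ := by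
    intro T
    obtain ⟨T₀, hT₀⟩ := hgr 1 one_pos
    refine ⟨√(max T₀ T), fun x hx hxT => Real.le_sqrt_of_sq_le ?_⟩
    simpa using hT₀ _ (le_max_left T₀ T) x hx (by rw [← hP]; exact hxT.trans (le_max_right _ _))
  refine (h.dual h0 hbd).contradiction hn h0 fun ε hε T₁ => ?_
  obtain ⟨T₀, hT₀⟩ := hgr ε hε
  refine ⟨max T₁ (max T₀ 0), le_max_left _ _, fun x hx hxT => ?_⟩
  set T := max T₁ (max T₀ 0)
  have hT0 : 0 ≤ T := (le_max_right _ _).trans (le_max_right _ _)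
  have hT : T₀ ≤ 2 * T := by linarith [(le_max_left T₀ 0).trans (le_max_right T₁ (max T₀ 0))]
  have h1 := hT₀ (2 * T) hT x hx (by rw [← hP]; exact hxT)
  show IsAMGraph.dualZ x₀ x ≤ ε * T
  rw [EuclideanSpace.norm_sq_eq] at h1
  simp only [PiLp.sub_apply, Real.norm_eq_abs, sq_abs] at h1
  unfold IsAMGraph.dualZ
  linarith

/-- No solution with complete graph lives over a bounded domain. -/
theorem not_bounded (h : IsAMGraph Ω u) (hn : 1 ≤ n) {x₀ : EuclideanSpace ℝ (Fin n)}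
    (h0 : x₀ ∈ Ω) : ¬ Bornology.IsBounded Ω := by
  intro hb
  obtain ⟨R, hR⟩ := (Metric.isBounded_iff_subset_closedBall x₀).1 hb
  refine not_superquadratic h hn h0 fun ε hε => ⟨R ^ 2 / ε, fun T hT x hx _ => ?_⟩
  have h1 : ‖x - x₀‖ ≤ R := by simpa [dist_eq_norm] using hR hx
  rw [ge_iff_le, div_le_iff₀ hε] at hT
  nlinarith [norm_nonneg (x - x₀)]

/-- No solution with complete graph has bounded gradient. -/
theorem not_lipschitz (h : IsAMGraph Ω u) (hn : 1 ≤ n) {x₀ : EuclideanSpace ℝ (Fin n)}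
    (h0 : x₀ ∈ Ω) : ¬ ∃ L, ∀ x ∈ Ω, ‖fderiv ℝ u x‖ ≤ L := by
  rintro ⟨L, hL⟩
  refine not_subquadratic h hn h0 fun ε hε => ⟨(2 * L) ^ 2 / ε, fun T hT x hx _ => ?_⟩
  have h1 : ‖fderiv ℝ u x - fderiv ℝ u x₀‖ ≤ 2 * L :=
    (norm_sub_le _ _).trans (by linarith [hL x hx, hL x₀ h0])
  rw [ge_iff_le, div_le_iff₀ hε] at hT
  nlinarith [norm_nonneg (fderiv ℝ u x - fderiv ℝ u x₀)]

end Vale.Agent.P252.Growth
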