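import Vale.Agent.P252.Growth.Calc

namespace Vale.Agent.P252.Growth

open Filter Topology
open scoped ContDiff

variable {n : ℕ} {f g : EuclideanSpace ℝ (Fin n) → ℝ} {x : EuclideanSpace ℝ (Fin n)}

lemma pd_const (c : ℝ) (i : Fin n) : pd (fun _ => c) i x = 0 := by simp [pd]

lemma pd_add (hf : DifferentiableAt ℝ f x) (hg : DifferentiableAt ℝ g x) (i : Fin n) :
    pd (fun y => f y + g y) i x = pd f i x + pd g i x := by
  simp [pd, fderiv_fun_add hf hg]

lemma pd_sub (hf : DifferentiableAt ℝ f x) (hg : DifferentiableAt ℝ g x) (i : Fin n) :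
    pd (fun y => f y - g y) i x = pd f i x - pd g i x := by
  simp [pd, fderiv_fun_sub hf hg]

lemma pd_neg (i : Fin n) : pd (fun y => - f y) i x = - pd f i x := by
  simp [pd, fderiv_fun_neg]

lemma pd_mul (hf : DifferentiableAt ℝ f x) (hg : DifferentiableAt ℝ g x) (i : Fin n) :
    pd (fun y => f y * g y) i x = f x * pd g i x + g x * pd f i x := by
  simp [pd, fderiv_fun_mul hf hg]

lemma pd_const_mul (hf : DifferentiableAt ℝ f x) (c : ℝ) (i : Fin n) :
    pd (fun y => c * f y) i x = c * pd f i x := by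
  simp [pd, fderiv_const_mul hf c]

lemma pd_comp {φ : ℝ → ℝ} {φ' : ℝ} (hφ : HasDerivAt φ φ' (f x)) (hf : DifferentiableAt ℝ f x)
    (i : Fin n) : pd (fun y => φ (f y)) i x = φ' * pd f i x := by
  have h := hφ.comp_hasFDerivAt x hf.hasFDerivAt
  simp [pd, show fderiv ℝ (fun y => φ (f y)) x = _ from h.fderiv]

lemma pd_sum {ι : Type*} {s : Finset ι} {F : ι → EuclideanSpace ℝ (Fin n) → ℝ}
    (hF : ∀ a ∈ s, DifferentiableAt ℝ (F a) x) (i : Fin n) :
    pd (fun y => ∑ a ∈ s, F a y) i x = ∑ a ∈ s, pd (F a) i x := by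
  simp [pd, fderiv_fun_sum hF]

lemma pd_coord (a i : Fin n) : pd (fun y => y a) i x = if a = i then 1 else 0 := by
  have h : HasFDerivAt (fun y : EuclideanSpace ℝ (Fin n) => y a)
      (EuclideanSpace.proj a : EuclideanSpace ℝ (Fin n) →L[ℝ] ℝ) x :=
    (EuclideanSpace.proj a : EuclideanSpace ℝ (Fin n) →L[ℝ] ℝ).hasFDerivAt
  rw [pd, h.fderiv]
  simp [PiLp.single_apply]

lemma coord_contDiff (a : Fin n) : ContDiff ℝ ∞ (fun y : EuclideanSpace ℝ (Fin n) => y a) :=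
  (EuclideanSpace.proj a : EuclideanSpace ℝ (Fin n) →L[ℝ] ℝ).contDiff

/-- Second partial derivatives of a composition with a real function. -/
lemma pd_pd_comp {Ω : Set (EuclideanSpace ℝ (Fin n))} (hΩ : IsOpen Ω) (hf : ContDiffOn ℝ ∞ f Ω)
    (hx : x ∈ Ω) {φ φ' : ℝ → ℝ} {φ'' : ℝ}
    (hφ : ∀ y ∈ Ω, HasDerivAt φ (φ' (f y)) (f y)) (hφ' : HasDerivAt φ' φ'' (f x)) (i j : Fin n) :
    pd (pd (fun y => φ (f y)) j) i x =
      φ' (f x) * pd (pd f j) i x + φ'' * pd f i x * pd f j x := by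
  rw [pd_congr_on hΩ (g := fun y => φ' (f y) * pd f j y)
    (fun y hy => pd_comp (hφ y hy) (diffAt hΩ hf hy) j) hx]
  have hd := diffAt hΩ hf hx
  rw [pd_mul (f := fun y => φ' (f y)) (hφ'.differentiableAt.comp x hd) (diffAt hΩ (pd_contDiffOn hΩ hf j) hx),
    pd_comp hφ' hd]
  ring

end Vale.Agent.P252.Growth
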